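import Vale.Agent.P050.H655.Main

/-!
Consequences for homomorphism densities.
-/

set_option linter.unusedSectionVars false

namespace Vale.Agent.P050.H655

open Finset Vale.Agent.P050.Cart Vale.Agent.P050.Join Vale.Agent.P050.M18 Vale.Agent.P050.H148
  Vale.Agent.P050.H180

variable {X : Type} [Fintype X] [Nonempty X] (G : SimpleGraph X)

/-- the condition on the parameters -/
def Long (k s t : ℕ) : Prop :=
  1 ≤ s ∧ s ≤ 2 ^ t ∧ 4 * s ^ 2 + (8 * t + 12) * s + 59 ≤ k

theorem Long.small [DecidableEq X] {m s t : ℕ} (h : Long (2 * m + 1) s t)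
    (hG : ∃ x y, G.Adj x y) : Small G (2 ^ s) m := by
  obtain ⟨h1, h2, h3⟩ := h
  refine small_of G hG s t m h1 h2 ?_
  have e1 : (8 * t + 12) * s = 2 * ((4 * t + 6) * s) := by ring
  omega

theorem two_le_pow {s : ℕ} (hs : 1 ≤ s) : 2 ≤ 2 ^ s := by
  calc 2 = 2 ^ 1 := rfl
    _ ≤ 2 ^ s := Nat.pow_le_pow_right (by norm_num) hs

/-- the main inequality -/
theorem main_ineq (k s t : ℕ) (hk : Odd k) (h : Long k s t) :
    edgeDensity G ^ 48 * homDensity (SimpleGraph.cycleGraph 4) G ^ (3 * k * 2 ^ s) ≤
      homDensity (moebiusLadder k) G ^ (4 * 2 ^ s) * homDensity cubeGraph G ^ 4 := by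
  classical
  obtain ⟨m, rfl⟩ := hk
  rcases (edge_nn G).lt_or_eq with hp | hp
  · obtain ⟨h1, h2, h3, h4⟩ := gen_final G hp (2 ^ s) m (two_le_pow h.1)
      (h.small G (exists_adj G hp))
    rw [← Real.log_le_log_iff (by positivity) (by positivity),
      Real.log_mul (by positivity) (by positivity), Real.log_mul (by positivity) (by positivity),
      Real.log_pow, Real.log_pow, Real.log_pow, Real.log_pow]
    push_cast at h1 ⊢
    linarith
  · rw [← hp]
    have h3 := hom_nn G (moebiusLadder (2 * m + 1))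
    have h4 := hom_nn G cubeGraph
    have : (0 : ℝ) ^ 48 * homDensity (SimpleGraph.cycleGraph 4) G ^
        (3 * (2 * m + 1) * 2 ^ s) = 0 := by norm_num
    rw [this]
    positivity

/-- the bouquet and 4-cycles -/
theorem bouq_four (k s t : ℕ) (hk : Odd k) (h : Long k s t) :
    edgeDensity G ^ 48 * homDensity (SimpleGraph.cycleGraph 4) G ^ (3 * k * 2 ^ s) ≤
      edgeDensity G ^ (4 * 2 ^ s) * homDensity (bouquet (2 ^ s) k) G ^ 4 := by
  classical
  obtain ⟨m, rfl⟩ := hk
  rcases (edge_nn G).lt_or_eq with hp | hp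
  · obtain ⟨h1, h2, h3⟩ := gen_bouq G hp (2 ^ s) m (two_le_pow h.1)
      (h.small G (exists_adj G hp))
    rw [← Real.log_le_log_iff (by positivity) (by positivity),
      Real.log_mul (by positivity) (by positivity), Real.log_mul (by positivity) (by positivity),
      Real.log_pow, Real.log_pow, Real.log_pow, Real.log_pow]
    push_cast at h1 ⊢
    linarith
  · have h3 := hom_nn G (bouquet (2 ^ s) (2 * m + 1))
    have h4 := edge_nn G
    have : edgeDensity G ^ 48 * homDensity (SimpleGraph.cycleGraph 4) G ^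
        (3 * (2 * m + 1) * 2 ^ s) = 0 := by rw [← hp]; norm_num
    rw [this]
    positivity

section derive

variable {k N : ℕ}

/-- many copies of the ladder and one cube -/
theorem der_cube (h1 : edgeDensity G ^ 48 *
    homDensity (SimpleGraph.cycleGraph 4) G ^ (3 * k * N) ≤
      homDensity (moebiusLadder k) G ^ (4 * N) * homDensity cubeGraph G ^ 4) :
    edgeDensity G ^ (3 * k * N + 12) ≤
      homDensity (moebiusLadder k) G ^ N * homDensity cubeGraph G := by
  have h2 := pow_le_pow_left₀ (by have := edge_nn G; positivity) (four_ge G) (3 * k * N)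
  have h3 : (edgeDensity G ^ (3 * k * N + 12)) ^ 4 ≤
      (homDensity (moebiusLadder k) G ^ N * homDensity cubeGraph G) ^ 4 := by
    calc (edgeDensity G ^ (3 * k * N + 12)) ^ 4
        = edgeDensity G ^ 48 * (edgeDensity G ^ 4) ^ (3 * k * N) := by
          rw [← pow_mul, ← pow_mul, ← pow_add]
          congr 1
          ring
      _ ≤ edgeDensity G ^ 48 * homDensity (SimpleGraph.cycleGraph 4) G ^ (3 * k * N) :=
          mul_le_mul_of_nonneg_left h2 (pow_nonneg (edge_nn G) _)
      _ ≤ _ := h1
      _ = _ := by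
          rw [mul_pow, ← pow_mul]
          congr 2
          ring
  exact le_of_pow_le_pow_left₀ (by norm_num) (mul_nonneg (pow_nonneg (hom_nn G _) _)
    (hom_nn G _)) h3

/-- the ladder and 4-cycles -/
theorem der_four (h1 : edgeDensity G ^ 48 *
    homDensity (SimpleGraph.cycleGraph 4) G ^ (3 * k * N) ≤
      homDensity (moebiusLadder k) G ^ (4 * N) * homDensity cubeGraph G ^ 4) :
    edgeDensity G ^ 32 * homDensity (SimpleGraph.cycleGraph 4) G ^ (3 * k * N) ≤
      homDensity (moebiusLadder k) G ^ (4 * N) := by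
  rcases (edge_nn G).lt_or_eq with hp | hp
  · have h2 := pow_le_pow_left₀ (hom_nn G _) (cube_le G) 4
    have h3 : edgeDensity G ^ 16 * (edgeDensity G ^ 32 *
        homDensity (SimpleGraph.cycleGraph 4) G ^ (3 * k * N)) ≤
        edgeDensity G ^ 16 * homDensity (moebiusLadder k) G ^ (4 * N) := by
      calc _ = edgeDensity G ^ 48 *
            homDensity (SimpleGraph.cycleGraph 4) G ^ (3 * k * N) := by ring
        _ ≤ _ := h1
        _ ≤ homDensity (moebiusLadder k) G ^ (4 * N) * (edgeDensity G ^ 4) ^ 4 :=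
            mul_le_mul_of_nonneg_left h2 (pow_nonneg (hom_nn G _) _)
        _ = _ := by ring
    exact le_of_mul_le_mul_left h3 (by positivity)
  · rw [← hp]
    have : (0 : ℝ) ^ 32 *
        homDensity (SimpleGraph.cycleGraph 4) G ^ (3 * k * N) = 0 := by norm_num
    rw [this]
    exact pow_nonneg (hom_nn G _) _

/-- the exponent -/
theorem der_exp (h1 : edgeDensity G ^ 32 *
    homDensity (SimpleGraph.cycleGraph 4) G ^ (3 * k * N) ≤
      homDensity (moebiusLadder k) G ^ (4 * N)) :
    edgeDensity G ^ (3 * k * N + 8) ≤ homDensity (moebiusLadder k) G ^ N := by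
  have h2 := pow_le_pow_left₀ (by have := edge_nn G; positivity) (four_ge G) (3 * k * N)
  have h3 : (edgeDensity G ^ (3 * k * N + 8)) ^ 4 ≤ (homDensity (moebiusLadder k) G ^ N) ^ 4 := by
    calc (edgeDensity G ^ (3 * k * N + 8)) ^ 4
        = edgeDensity G ^ 32 * (edgeDensity G ^ 4) ^ (3 * k * N) := by
          rw [← pow_mul, ← pow_mul, ← pow_add]
          congr 1
          ring
      _ ≤ edgeDensity G ^ 32 * homDensity (SimpleGraph.cycleGraph 4) G ^ (3 * k * N) :=
          mul_le_mul_of_nonneg_left h2 (pow_nonneg (edge_nn G) _)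
      _ ≤ _ := h1
      _ = _ := by
          rw [← pow_mul]
          congr 1
          ring
  exact le_of_pow_le_pow_left₀ (by norm_num) (pow_nonneg (hom_nn G _) _) h3

/-- Sidorenko's inequality in graphs with slightly more 4-cycles than a random graph -/
theorem der_rich (hN : N ≠ 0) (h1 : edgeDensity G ^ 32 *
    homDensity (SimpleGraph.cycleGraph 4) G ^ (3 * k * N) ≤
      homDensity (moebiusLadder k) G ^ (4 * N))
    (hr : edgeDensity G ^ (12 * k * N) ≤ edgeDensity G ^ 32 *
      homDensity (SimpleGraph.cycleGraph 4) G ^ (3 * k * N)) :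
    edgeDensity G ^ (3 * k) ≤ homDensity (moebiusLadder k) G := by
  have h2 := hr.trans h1
  have e : 12 * k * N = 3 * k * (4 * N) := by ring
  rw [e, pow_mul] at h2
  exact le_of_pow_le_pow_left₀ (by omega) (hom_nn G _) h2

/-- the bouquet satisfies Sidorenko's inequality -/
theorem der_bouq (hk : Odd k) (h1 : edgeDensity G ^ 48 *
    homDensity (SimpleGraph.cycleGraph 4) G ^ (3 * k * N) ≤
      edgeDensity G ^ (4 * N) * homDensity (bouquet N k) G ^ 4) :
    edgeDensity G ^ (12 + N * (3 * k - 1)) ≤ homDensity (bouquet N k) G := by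
  rcases (edge_nn G).lt_or_eq with hp | hp
  · have h2 := pow_le_pow_left₀ (by positivity) (four_ge G) (3 * k * N)
    have h3 : edgeDensity G ^ (4 * N) * (edgeDensity G ^ (12 + N * (3 * k - 1))) ^ 4 ≤
        edgeDensity G ^ (4 * N) * homDensity (bouquet N k) G ^ 4 := by
      calc _ = edgeDensity G ^ 48 * (edgeDensity G ^ 4) ^ (3 * k * N) := by
            rw [← pow_mul, ← pow_mul, ← pow_add, ← pow_add]
            congr 1
            obtain ⟨q, hq⟩ : ∃ q, 3 * k = q + 1 := ⟨3 * k - 1, by have := hk.pos; omega⟩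
            rw [hq, Nat.add_sub_cancel]
            ring
        _ ≤ edgeDensity G ^ 48 * homDensity (SimpleGraph.cycleGraph 4) G ^ (3 * k * N) :=
            mul_le_mul_of_nonneg_left h2 (by positivity)
        _ ≤ _ := h1
    exact le_of_pow_le_pow_left₀ (by norm_num) (hom_nn G _)
      (le_of_mul_le_mul_left h3 (by positivity))
  · rw [← hp, zero_pow (by omega)]
    exact hom_nn G _

/-- a real exponent -/
theorem der_real (hp : 0 < edgeDensity G) (hN : 0 < N)
    (h1 : edgeDensity G ^ (3 * k * N + 8) ≤ homDensity (moebiusLadder k) G ^ N) :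
    edgeDensity G ^ (3 * (k : ℝ) + 8 / N) ≤ homDensity (moebiusLadder k) G := by
  have hN0 : (0 : ℝ) < N := by exact_mod_cast hN
  have e2 : (3 * (k : ℝ) + 8 / N) = ((3 * k * N + 8 : ℕ) : ℝ) * (1 / N) := by
    push_cast
    field_simp
  rw [e2, Real.rpow_mul hp.le, Real.rpow_natCast]
  have h2 : (edgeDensity G ^ (3 * k * N + 8)) ^ (1 / (N : ℝ)) ≤
      (homDensity (moebiusLadder k) G ^ N) ^ (1 / (N : ℝ)) :=
    Real.rpow_le_rpow (by positivity) h1 (by positivity)
  refine h2.trans (le_of_eq ?_)
  rw [← Real.rpow_natCast, ← Real.rpow_mul (hom_nn G _), mul_one_div_cancel hN0.ne',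
    Real.rpow_one]

end derive

end Vale.Agent.P050.H655
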