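import Vale.Agent.P050.H655.Coro

/-!
The uniform law on the edges, and the sharper form of the inequalities.
-/

set_option linter.unusedSectionVars false

namespace Vale.Agent.P050.H655

open Finset Vale.Agent.P050.Cart Vale.Agent.P050.Join Vale.Agent.P050.M18 Vale.Agent.P050.H148
  Vale.Agent.P050.H180

section law

variable {X : Type} [Fintype X] (G : SimpleGraph X)

/-- the uniform law on the edges -/
noncomputable def Q1 (a : X × X) : ℝ := adj G a.1 a.2 / ∑ x, ∑ y, adj G x y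

theorem adj_sum_nn : 0 ≤ ∑ x, ∑ y, adj G x y :=
  Finset.sum_nonneg fun x _ => Finset.sum_nonneg fun y _ => adj_nn G x y

theorem Q1_ne {a : X × X} (h : Q1 G a ≠ 0) : adj G a.1 a.2 = 1 :=
  adj_one G (div_ne_zero_iff.1 h).1

variable (hG : ∃ x y, G.Adj x y)
include hG

theorem adj_sum_pos : 0 < ∑ x, ∑ y, adj G x y := by
  obtain ⟨x, y, hxy⟩ := hG
  have h1 : adj G x y = 1 := by
    unfold adj
    rw [if_pos hxy]
  have h2 : adj G x y ≤ ∑ y, adj G x y :=
    Finset.single_le_sum (f := fun y => adj G x y) (fun b _ => adj_nn G _ _) (mem_univ _)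
  have h3 : ∑ y, adj G x y ≤ ∑ x, ∑ y, adj G x y :=
    Finset.single_le_sum (f := fun x => ∑ y, adj G x y)
      (fun a _ => Finset.sum_nonneg fun b _ => adj_nn G _ _) (mem_univ _)
  linarith

theorem Q1_edge : Edge (Q1 G) where
  nn := fun a => div_nonneg (adj_nn G _ _) (adj_sum_nn G)
  tot := by
    unfold Q1
    rw [← Finset.sum_div, Fintype.sum_prod_type]
    exact div_self (adj_sum_pos G hG).ne'
  sym := by
    intro x y
    unfold Q1
    simp only
    rw [adj_symm G x y]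

theorem Q1_four : Four (CG G) (Q1 G) where
  c0 := CG_nn G
  c1 := by
    intro s f f' s' h1 h2 h3 h4
    have a1 := Q1_ne G h1
    have a2 := Q1_ne G h2
    have a3 := Q1_ne G h3
    have a4 := Q1_ne G h4
    unfold CG
    simp only at a1 a2 a3 a4 ⊢
    rw [a1, a2, a3, a4]
    norm_num

/-- the entropy of the uniform law -/
theorem hQ1_eq : hQ (Q1 G) = Real.log (∑ x, ∑ y, adj G x y) := by
  have ht := adj_sum_pos G hG
  have hE := Q1_edge G hG
  unfold hQ
  rw [ent_eq]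
  have e1 : ∀ x, Q1 G x * Real.log (mar (Q1 G) (fun x => x) x) =
      - (Q1 G x * Real.log (∑ x, ∑ y, adj G x y)) := by
    intro x
    rw [mar_id]
    by_cases hx : Q1 G x = 0
    · rw [hx]; ring
    · have h1 := Q1_ne G hx
      have h2 : Q1 G x = 1 / ∑ x, ∑ y, adj G x y := by
        unfold Q1
        rw [h1]
      rw [h2, Real.log_div one_ne_zero ht.ne', Real.log_one]
      ring
  rw [Finset.sum_congr rfl fun x _ => e1 x, Finset.sum_neg_distrib, neg_neg, ← Finset.sum_mul,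
    hE.tot, one_mul]

/-- the entropy of a vertex -/
theorem aQ1_le : aQ (Q1 G) ≤ Real.log (Fintype.card X) := by
  have hE := Q1_edge G hG
  have key := ent_log_sum (P := Q1 G) hE.nn hE.tot (fun e => e.2) (fun _ => 1)
    (fun a => zero_le_one) (fun a ha => one_ne_zero)
  have h2 := key.2
  simp only [Real.log_one, mul_zero, Finset.sum_const_zero, add_zero, Finset.sum_const,
    Finset.card_univ, nsmul_eq_mul, mul_one] at h2
  rw [hE.ent_snd] at h2
  exact h2

theorem PP_one_ne [DecidableEq X] {x : (X × X) × (X × X)} (h : PP (Q1 G) 1 x ≠ 0) :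
    CG G x.1 x.2 = 1 := by
  have h1 := (st_PP (Q1_edge G hG) (Q1_four G hG) 1).sup x h
  rw [zp_one] at h1
  exact CG_one G h1

theorem PP_one_left [DecidableEq X] (e : X × X) : ∑ e', PP (Q1 G) 1 (e, e') = Q1 G e := by
  have h1 : mar (PP (Q1 G) 1) (fun x => x.1) e = ∑ e', PP (Q1 G) 1 (e, e') := mar_prod_fst _ _
  rw [← h1, PP_fst (Q1_edge G hG)]

theorem PP_one_right [DecidableEq X] (e' : X × X) : ∑ e, PP (Q1 G) 1 (e, e') = Q1 G e' := by
  have h1 : mar (PP (Q1 G) 1) (fun x => x.2) e' = ∑ e, PP (Q1 G) 1 (e, e') := mar_prod_snd _ _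
  rw [← h1, (PP_lab (Q1_edge G hG) 1).snd]

end law

/-- a small decrement of the mutual information -/
def Small1 {X : Type} [Fintype X] [DecidableEq X] (G : SimpleGraph X) (N m : ℕ) : Prop :=
  ∃ i : ℕ, 2 ≤ i ∧ i + 1 ≤ m ∧ 2 * (hP (Q1 G) (i + 1) - hP (Q1 G) i) ≤
    AA (Q1 G) 2 / N + (2 * aQ (Q1 G) - h2Q (Q1 G))

section graph

variable {X : Type} [Fintype X] (G : SimpleGraph X) (hG : ∃ x y, G.Adj x y)
include hG

theorem small1_of [DecidableEq X] (s t m : ℕ) (hst : s ≤ 2 ^ t)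
    (hm : s ^ 2 + (2 * t + 3) * s + 12 ≤ 2 * m) : Small1 G (2 ^ s) m := by
  have hE := Q1_edge G hG
  obtain ⟨i, h1, h2, h3⟩ := scale_small (A := AA (Q1 G)) (r := 2 * aQ (Q1 G) - h2Q (Q1 G))
    (fun n => by unfold AA; linarith [hP_le hE n])
    (fun n => by unfold AA; linarith [hP_mono hE n]) (r_nonneg hE)
    (fun n k i hn => by unfold AA; exact AA_levels hE n k i hn) t s hst
  have h4 := two_scale t s
  have h5 := two_le_scale t s
  refine ⟨i, by omega, by omega, ?_⟩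
  have e : hP (Q1 G) (i + 1) - hP (Q1 G) i = AA (Q1 G) i - AA (Q1 G) (i + 1) := by
    unfold AA; ring
  rw [e]
  push_cast
  exact h3

/-- the inequality in terms of logarithms of numbers -/
theorem edge_log [DecidableEq X] (N m : ℕ) (hN : 1 ≤ N) (hS : Small1 G N m) :
    (N * (2 * m + 1) + 4) *
      (3 * Real.log (∑ x, ∑ y, adj G x y) - 4 * Real.log (Fintype.card X)) ≤
      N * Real.log (tw (CG G) m) + Real.log (pr (CG G) 2) ∧
    0 < tw (CG G) m ∧ 0 < pr (CG G) 2 := by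
  have hE := Q1_edge G hG
  have hC := Q1_four G hG
  obtain ⟨i, hi1, hi2, hi3⟩ := hS
  obtain ⟨j, hj⟩ : ∃ j, m = i + 1 + j := ⟨m - i - 1, by omega⟩
  have h5 := ladder_log hE hC (PP_lab hE 1).nn (PP_one_left G hG) (PP_one_right G hG)
    (fun x hx => PP_one_ne G hG hx) i j (by omega)
  have h6 := cube_log hE hC
  rw [← hj] at h5
  refine ⟨?_, h5.1, h6.1⟩
  have h7 := h5.2
  have eT : ent (PP (Q1 G) 1) (fun x => x) = hQ (Q1 G) + gQ (Q1 G) := hP_one hE
  rw [eT] at h7
  have e3 : gQ (Q1 G) = 3 * hQ (Q1 G) - 2 * aQ (Q1 G) - h2Q (Q1 G) := rfl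
  rw [e3] at h7
  have h8 := r_nonneg hE
  have h9 := hQ1_eq G hG
  have h10 := aQ1_le G hG
  set D : ℝ := (N : ℝ) with hD
  set E := Real.log (∑ x, ∑ y, adj G x y) with hEd
  set ℓ := Real.log (Fintype.card X) with hℓ
  rw [h9] at h7
  have h14 := h6.2
  rw [h9] at h14
  set a := aQ (Q1 G) with had
  set h2 := h2Q (Q1 G) with hh2
  have hD1 : (1 : ℝ) ≤ D := by rw [hD]; exact_mod_cast hN
  -- the small decrement
  have h11 : D * (2 * (hP (Q1 G) (i + 1) - hP (Q1 G) i)) ≤ AA (Q1 G) 2 + D * (2 * a - h2) := by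
    have h12 := mul_le_mul_of_nonneg_left hi3 (by linarith : (0 : ℝ) ≤ D)
    rw [mul_add, mul_div_cancel₀ _ (by linarith : D ≠ 0)] at h12
    exact h12
  have hi0 : (2 : ℝ) ≤ i := by exact_mod_cast hi1
  have hj0 : (0 : ℝ) ≤ j := Nat.cast_nonneg j
  have h13 := mul_le_mul_of_nonneg_left h7 (by linarith : (0 : ℝ) ≤ D)
  have hm : (m : ℝ) = i + 1 + j := by exact_mod_cast hj
  have h16 : 0 ≤ (D * (2 * m + 1) + 4) * (ℓ - a) := by
    refine mul_nonneg ?_ (by linarith)
    rw [hm]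
    nlinarith
  have h17 : 0 ≤ D * ((2 * i + 2 * j - 1) * (2 * a - h2)) := by
    refine mul_nonneg (by linarith) (mul_nonneg (by linarith) h8)
  rw [hm] at h16 ⊢
  nlinarith [h11, h13, h14, h16, h17]

/-- the inequality in terms of logarithms of numbers, with a common rung -/
theorem edge_pin [DecidableEq X] (N m : ℕ) (hN : 1 ≤ N) (hS : Small1 G N m) :
    (N * (2 * m + 1) + 4) *
      (3 * Real.log (∑ x, ∑ y, adj G x y) - 4 * Real.log (Fintype.card X)) ≤
      Real.log (∑ R, twR (CG G) m R ^ N * prR (CG G) 2 R) +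
        N * Real.log (∑ x, ∑ y, adj G x y) ∧
    0 < ∑ R, twR (CG G) m R ^ N * prR (CG G) 2 R := by
  have hE := Q1_edge G hG
  have hC := Q1_four G hG
  obtain ⟨i, hi1, hi2, hi3⟩ := hS
  obtain ⟨j, hj⟩ : ∃ j, m = i + 1 + j := ⟨m - i - 1, by omega⟩
  have h5 := ladder_pin hE hC (PP_lab hE 1).nn (PP_one_left G hG) (PP_one_right G hG)
    (fun x hx => PP_one_ne G hG hx) i j (by omega)
  have h6 := cube_pin hE hC
  rw [← hj] at h5
  have hg := glue_log hE hC m N h5.1 h6.1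
  refine ⟨?_, hg.1⟩
  have h7 := h5.2
  have eT : ent (PP (Q1 G) 1) (fun x => x) = hQ (Q1 G) + gQ (Q1 G) := hP_one hE
  rw [eT] at h7
  have e3 : gQ (Q1 G) = 3 * hQ (Q1 G) - 2 * aQ (Q1 G) - h2Q (Q1 G) := rfl
  rw [e3] at h7
  have h8 := r_nonneg hE
  have h9 := hQ1_eq G hG
  have h10 := aQ1_le G hG
  have h14 := h6.2
  have h18 := hg.2
  rw [h9] at h7 h14 h18
  set D : ℝ := (N : ℝ) with hD
  set E := Real.log (∑ x, ∑ y, adj G x y) with hEd
  set ℓ := Real.log (Fintype.card X) with hℓ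
  set a := aQ (Q1 G) with had
  set h2 := h2Q (Q1 G) with hh2
  set LT := ∑ R, Q1 G R * Real.log (twR (CG G) m R) with hLT
  set LP := ∑ R, Q1 G R * Real.log (prR (CG G) 2 R) with hLP
  have hD1 : (1 : ℝ) ≤ D := by rw [hD]; exact_mod_cast hN
  -- the small decrement
  have h11 : D * (2 * (hP (Q1 G) (i + 1) - hP (Q1 G) i)) ≤ AA (Q1 G) 2 + D * (2 * a - h2) := by
    have h12 := mul_le_mul_of_nonneg_left hi3 (by linarith : (0 : ℝ) ≤ D)
    rw [mul_add, mul_div_cancel₀ _ (by linarith : D ≠ 0)] at h12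
    exact h12
  have hi0 : (2 : ℝ) ≤ i := by exact_mod_cast hi1
  have hj0 : (0 : ℝ) ≤ j := Nat.cast_nonneg j
  have h13 := mul_le_mul_of_nonneg_left h7 (by linarith : (0 : ℝ) ≤ D)
  have hm : (m : ℝ) = i + 1 + j := by exact_mod_cast hj
  have h16 : 0 ≤ (D * (2 * m + 1) + 4) * (ℓ - a) := by
    refine mul_nonneg ?_ (by linarith)
    rw [hm]
    nlinarith
  have h17 : 0 ≤ D * ((2 * i + 2 * j - 1) * (2 * a - h2)) := by
    refine mul_nonneg (by linarith) (mul_nonneg (by linarith) h8)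
  rw [hm] at h16 ⊢
  nlinarith [h11, h13, h14, h16, h17, h18]

end graph

end Vale.Agent.P050.H655
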