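import Vale.Agent.P050.H655.Edge
import Mathlib.Data.Nat.Log
import Mathlib.Analysis.SpecialFunctions.Log.Base

/-!
The sharper form: homomorphism densities.
-/

set_option linter.unusedSectionVars false

namespace Vale.Agent.P050.H655

open Finset Vale.Agent.P050.Cart Vale.Agent.P050.Join Vale.Agent.P050.M18 Vale.Agent.P050.H148
  Vale.Agent.P050.H180

section density

variable {X : Type} [Fintype X] [Nonempty X] (G : SimpleGraph X)

/-- the inequality between logarithms -/
theorem edge_final [DecidableEq X] (hp : 0 < edgeDensity G) (N m : ℕ) (hN : 1 ≤ N)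
    (hS : Small1 G N m) :
    (3 * (2 * m + 1) * N + 12) * Real.log (edgeDensity G) ≤
    N * Real.log (homDensity (moebiusLadder (2 * m + 1)) G) +
      Real.log (homDensity cubeGraph G) ∧
    0 < homDensity (moebiusLadder (2 * m + 1)) G ∧ 0 < homDensity cubeGraph G := by
  have hG := exists_adj G hp
  have hn := card_pos' (X := X)
  obtain ⟨h1, h2, h3⟩ := edge_log G hG N m hN hS
  rw [tw_num] at h2 h1
  rw [cube_num] at h3 h1
  rw [adj_sum'] at h1
  have hM : 0 < homDensity (moebiusLadder (2 * m + 1)) G := by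
    rcases (hom_nn G (moebiusLadder (2 * m + 1))).lt_or_eq with h | h
    · exact h
    · rw [← h, zero_mul] at h2; exact absurd h2 (lt_irrefl _)
  have hQ : 0 < homDensity cubeGraph G := by
    rcases (hom_nn G cubeGraph).lt_or_eq with h | h
    · exact h
    · rw [← h, zero_mul] at h3; exact absurd h3 (lt_irrefl _)
  refine ⟨?_, hM, hQ⟩
  rw [Real.log_mul hp.ne' (by positivity), Real.log_mul hM.ne' (by positivity),
    Real.log_mul hQ.ne' (by positivity), Real.log_pow, Real.log_pow, Real.log_pow] at h1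
  push_cast at h1
  nlinarith [h1]

/-- the inequality between logarithms for the bouquet -/
theorem edge_bouq [DecidableEq X] (hp : 0 < edgeDensity G) (N m : ℕ) (hN : 1 ≤ N)
    (hS : Small1 G N m) :
    (3 * (2 * m + 1) * N + 12) * Real.log (edgeDensity G) ≤
    Real.log (homDensity (bouquet N (2 * m + 1)) G) + N * Real.log (edgeDensity G) ∧
    0 < homDensity (bouquet N (2 * m + 1)) G := by
  have hG := exists_adj G hp
  have hn := card_pos' (X := X)
  obtain ⟨h1, h2⟩ := edge_pin G hG N m hN hS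
  rw [bouq_num] at h2 h1
  rw [adj_sum'] at h1
  have hB : 0 < homDensity (bouquet N (2 * m + 1)) G := by
    rcases (hom_nn G (bouquet N (2 * m + 1))).lt_or_eq with h | h
    · exact h
    · rw [← h, zero_mul] at h2; exact absurd h2 (lt_irrefl _)
  refine ⟨?_, hB⟩
  rw [Real.log_mul hp.ne' (by positivity),
    Real.log_mul hB.ne' (by positivity), Real.log_pow, Real.log_pow] at h1
  push_cast at h1
  nlinarith [h1]

/-- the condition on the parameters -/
def Wide (k s t : ℕ) : Prop := s ≤ 2 ^ t ∧ s ^ 2 + (2 * t + 3) * s + 13 ≤ k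

theorem Wide.small [DecidableEq X] {m s t : ℕ} (h : Wide (2 * m + 1) s t)
    (hG : ∃ x y, G.Adj x y) : Small1 G (2 ^ s) m := by
  obtain ⟨h1, h2⟩ := h
  exact small1_of G hG s t m h1 (by omega)

theorem one_le_pow2 (s : ℕ) : 1 ≤ 2 ^ s := Nat.one_le_pow _ _ (by norm_num)

/-- many copies of the ladder and one cube -/
theorem wide_cube (k s t : ℕ) (hk : Odd k) (h : Wide k s t) :
    edgeDensity G ^ (3 * k * 2 ^ s + 12) ≤
      homDensity (moebiusLadder k) G ^ (2 ^ s) * homDensity cubeGraph G := by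
  classical
  obtain ⟨m, rfl⟩ := hk
  rcases (edge_nn G).lt_or_eq with hp | hp
  · obtain ⟨h1, h2, h3⟩ := edge_final G hp (2 ^ s) m (one_le_pow2 s)
      (h.small G (exists_adj G hp))
    rw [← Real.log_le_log_iff (by positivity) (by positivity),
      Real.log_mul (by positivity) (by positivity), Real.log_pow, Real.log_pow]
    push_cast at h1 ⊢
    linarith
  · have h3 := hom_nn G (moebiusLadder (2 * m + 1))
    have h4 := hom_nn G cubeGraph
    rw [← hp, zero_pow (by omega)]
    positivity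

/-- the bouquet satisfies Sidorenko's inequality -/
theorem wide_bouq (k s t : ℕ) (hk : Odd k) (h : Wide k s t) :
    edgeDensity G ^ (12 + 2 ^ s * (3 * k - 1)) ≤ homDensity (bouquet (2 ^ s) k) G := by
  classical
  obtain ⟨m, rfl⟩ := hk
  rcases (edge_nn G).lt_or_eq with hp | hp
  · obtain ⟨h1, h2⟩ := edge_bouq G hp (2 ^ s) m (one_le_pow2 s)
      (h.small G (exists_adj G hp))
    rw [← Real.log_le_log_iff (by positivity) (by positivity), Real.log_pow]
    have e : 3 * (2 * m + 1) - 1 = 6 * m + 2 := by omega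
    rw [e]
    push_cast at h1 ⊢
    nlinarith [h1]
  · rw [← hp, zero_pow (by omega)]
    exact hom_nn G _

/-- the exponent -/
theorem wide_exp (k s t : ℕ) (hk : Odd k) (h : Wide k s t) :
    edgeDensity G ^ (3 * k * 2 ^ s + 8) ≤ homDensity (moebiusLadder k) G ^ (2 ^ s) := by
  rcases (edge_nn G).lt_or_eq with hp | hp
  · have h1 := wide_cube G k s t hk h
    have h2 := mul_le_mul_of_nonneg_left (cube_le G)
      (pow_nonneg (hom_nn G (moebiusLadder k)) (2 ^ s))
    have h3 : edgeDensity G ^ 4 * edgeDensity G ^ (3 * k * 2 ^ s + 8) ≤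
        edgeDensity G ^ 4 * homDensity (moebiusLadder k) G ^ (2 ^ s) := by
      calc _ = edgeDensity G ^ (3 * k * 2 ^ s + 12) := by ring
        _ ≤ _ := h1
        _ ≤ _ := h2
        _ = _ := by ring
    exact le_of_mul_le_mul_left h3 (by positivity)
  · rw [← hp, zero_pow (by omega)]
    exact pow_nonneg (hom_nn G _) _

end density

section choice

theorem lt_two_rpow {x : ℝ} (hx : 7 < x) : x < 2 ^ (x - 4) := by
  have h1 : (2 : ℝ) ^ (x - 4) = 8 * 2 ^ (x - 7) := by
    have : x - 4 = 3 + (x - 7) := by ring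
    rw [this, Real.rpow_add (by norm_num)]
    norm_num
  have h2 : 1 + (x - 7) * Real.log 2 ≤ (2 : ℝ) ^ (x - 7) := by
    rw [Real.rpow_def_of_pos (by norm_num)]
    have := Real.add_one_le_exp (Real.log 2 * (x - 7))
    linarith
  have h3 := Real.log_two_gt_d9
  rw [h1]
  nlinarith

/-- the choice of the parameters -/
theorem exists_wide (k : ℕ) (hk : 7 < Real.sqrt k) :
    ∃ s t, Wide k s t ∧ Real.sqrt k - 4 - Real.logb 2 (Real.sqrt k) ≤ s := by
  set x := Real.sqrt k with hx
  have hxk : x ^ 2 = k := Real.sq_sqrt (Nat.cast_nonneg k)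
  set L := Real.logb 2 x with hL
  have hx0 : 0 < x := by linarith
  have hLx : (2 : ℝ) ^ L = x := Real.rpow_logb (by norm_num) (by norm_num) hx0
  have hL1 : L < x - 4 := by
    have h1 := lt_two_rpow hk
    rw [← hLx] at h1
    have h2 := (Real.rpow_lt_rpow_left_iff (x := 2) (by norm_num)).1 h1
    rwa [hLx] at h2
  have hL2 : 2 ≤ L := by
    have h1 : (2 : ℝ) ^ (2 : ℝ) ≤ 2 ^ L := by
      rw [hLx]
      norm_num
      linarith
    exact (Real.rpow_le_rpow_left_iff (by norm_num)).1 h1
  set s := ⌈x - 4 - L⌉₊ with hs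
  have h1 : x - 4 - L ≤ s := Nat.le_ceil _
  have h2 : (s : ℝ) < x - 4 - L + 1 := Nat.ceil_lt_add_one (by linarith)
  have h3 : 1 ≤ s := by
    have : (0 : ℝ) < s := by linarith
    have h4 : 0 < s := by exact_mod_cast this
    omega
  -- the logarithm
  have h4 : (Nat.clog 2 s : ℝ) ≤ L + 1 := by
    by_cases h : s = 1
    · rw [h]
      norm_num
      linarith
    · have h5 := Nat.pow_pred_clog_lt_self (b := 2) (by norm_num) (x := s) (by omega)
      have h6 : 1 ≤ Nat.clog 2 s := Nat.clog_pos (by norm_num) (by omega)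
      obtain ⟨c, hc⟩ : ∃ c, Nat.clog 2 s = c + 1 := ⟨Nat.clog 2 s - 1, by omega⟩
      rw [hc] at h5 ⊢
      rw [Nat.pred_succ] at h5
      have h7 : ((2 : ℝ) ^ (c : ℝ)) < 2 ^ L := by
        rw [hLx, Real.rpow_natCast]
        have h8 : ((2 ^ c : ℕ) : ℝ) < s := by exact_mod_cast h5
        push_cast at h8
        linarith
      have h8 := (Real.rpow_lt_rpow_left_iff (x := 2) (by norm_num)).1 h7
      push_cast
      linarith
  refine ⟨s, Nat.clog 2 s, ⟨Nat.le_pow_clog (by norm_num) s, ?_⟩, h1⟩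
  have h5 : ((s : ℝ) ^ 2 + (2 * (Nat.clog 2 s : ℝ) + 3) * s + 13) ≤ k := by
    rw [← hxk]
    have h3' : (1 : ℝ) ≤ s := by exact_mod_cast h3
    have h6 : (2 * (Nat.clog 2 s : ℝ) + 3) * s ≤ (2 * L + 5) * s :=
      mul_le_mul_of_nonneg_right (by linarith) (by linarith)
    have h7 : (s : ℝ) * (s + 2 * L + 5) ≤ (x - 3 - L) * (x + 2 + L) := by
      apply mul_le_mul <;> linarith
    nlinarith
  exact_mod_cast h5

end choice

variable {X : Type} [Fintype X] [Nonempty X] (G : SimpleGraph X)

/-- the exponent is `3 k` up to a stretched exponential error -/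
theorem wide_real (k : ℕ) (hk : Odd k) (h5 : 5 ≤ k) :
    edgeDensity G ^ (3 * (k : ℝ) + 128 * Real.sqrt k / 2 ^ Real.sqrt k) ≤
      homDensity (moebiusLadder k) G := by
  have hk5 : (5 : ℝ) ≤ k := by exact_mod_cast h5
  have hx1 : 1 ≤ Real.sqrt k := by
    rw [Real.le_sqrt' (by norm_num)]
    linarith
  rcases (edge_nn G).lt_or_eq with hp | hp
  swap
  · rw [← hp, Real.zero_rpow (by positivity)]
    exact hom_nn G _
  have hp1 := edge_le_one G
  -- it suffices to have a smaller exponent
  have red : ∀ e : ℝ, e ≤ 3 * k + 128 * Real.sqrt k / 2 ^ Real.sqrt k →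
      edgeDensity G ^ e ≤ homDensity (moebiusLadder k) G →
      edgeDensity G ^ (3 * (k : ℝ) + 128 * Real.sqrt k / 2 ^ Real.sqrt k) ≤
        homDensity (moebiusLadder k) G := fun e he h =>
    (Real.rpow_le_rpow_of_exponent_ge hp hp1 he).trans h
  by_cases h7 : Real.sqrt k ≤ 7
  · refine red (3 * k + 1) ?_ ?_
    · have h8 : (2 : ℝ) ^ Real.sqrt k ≤ 128 := by
        have h9 : (2 : ℝ) ^ Real.sqrt k ≤ 2 ^ (7 : ℝ) :=
          Real.rpow_le_rpow_of_exponent_le (by norm_num) h7
        have h10 : (2 : ℝ) ^ (7 : ℝ) = 128 := by norm_num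
        rw [h10] at h9
        exact h9
      have h11 : (1 : ℝ) ≤ 128 * Real.sqrt k / 2 ^ Real.sqrt k := by
        rw [one_le_div (by positivity)]
        linarith
      linarith
    · have h1 := (sharp_graph G k hk h5).2
      have e : (3 * k + 1 : ℝ) = ((3 * k + 1 : ℕ) : ℝ) := by push_cast; ring
      rw [e, Real.rpow_natCast]
      exact h1
  push Not at h7
  obtain ⟨s, t, hL, hs⟩ := exists_wide k h7
  have h1 := wide_exp G k s t hk hL
  have h2 := der_real G hp (N := 2 ^ s) (by positivity) h1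
  refine red _ ?_ h2
  have h3 : (8 : ℝ) / ((2 ^ s : ℕ) : ℝ) = (2 : ℝ) ^ (3 - s : ℝ) := by
    rw [Real.rpow_sub (by norm_num), Real.rpow_natCast]
    norm_num
  have h4 : (2 : ℝ) ^ (3 - s : ℝ) ≤
      (2 : ℝ) ^ (7 + Real.logb 2 (Real.sqrt k) - Real.sqrt k) :=
    Real.rpow_le_rpow_of_exponent_le (by norm_num) (by linarith)
  have h6 : (2 : ℝ) ^ (7 + Real.logb 2 (Real.sqrt k) - Real.sqrt k) =
      128 * Real.sqrt k / 2 ^ Real.sqrt k := by
    rw [Real.rpow_sub (by norm_num), Real.rpow_add (by norm_num),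
      Real.rpow_logb (by norm_num) (by norm_num) (by linarith)]
    norm_num
  rw [h3]
  rw [h6] at h4
  linarith

end Vale.Agent.P050.H655
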