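import Vale.Agent.P050.H655.Pack

/-!
The recursive inequality for the memory of the chain.
-/

set_option linter.unusedSectionVars false

namespace Vale.Agent.P050.H655

open Finset Vale.Agent.P050.Cart Vale.Agent.P050.Join Vale.Agent.P050.M18

variable {U ρ σ : Type} [Fintype U] [Fintype ρ] [Fintype σ]
variable {Q : U × U → ℝ} {F : ρ × (U × U) → ℝ}

/-- a function of the label -/
theorem lab_map (h : Lab Q F) (φ : ρ → σ) : Lab Q (mar F (fun x => (φ x.1, x.2))) where
  nn := mar_nonneg h.nn _
  snd := by
    funext a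
    rw [mar_mar]
    exact congrFun h.snd a

/-- the step commutes with functions of the label -/
theorem nx_map (h : Lab Q F) (hE : Edge Q) (φ : ρ → σ) :
    mar (nx Q F) (fun x => (φ x.1, x.2)) = nx Q (mar F (fun x => (φ x.1, x.2))) := by
  funext a
  rw [← mar_id (nx Q (mar F (fun x => (φ x.1, x.2)))) a]
  refine mar_of_sum (fun G => ?_) a
  rw [nx_sum h hE (fun x => G (φ x.1, x.2)), nx_sum (lab_map h φ) hE (fun x => G x)]
  have e1 := sum_mar F (fun x => (φ x.1, x.2)) (fun w => ∑ e', kk Q w.2 e' * G (w.1, e'))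
  rw [Fintype.sum_prod_type] at e1
  rw [e1, Fintype.sum_prod_type]

theorem iter_lab (h : Lab Q F) (hE : Edge Q) (n : ℕ) : Lab Q ((nx Q)^[n] F) := by
  induction n with
  | zero => exact h
  | succ n ih =>
    rw [Function.iterate_succ_apply']
    exact ih.nx_lab hE

theorem iter_map (h : Lab Q F) (hE : Edge Q) (φ : ρ → σ) (n : ℕ) :
    mar ((nx Q)^[n] F) (fun x => (φ x.1, x.2)) =
      (nx Q)^[n] (mar F (fun x => (φ x.1, x.2))) := by
  induction n with
  | zero => rfl
  | succ n ih =>
    rw [Function.iterate_succ_apply', Function.iterate_succ_apply',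
      nx_map (iter_lab h hE n) hE, ih]

theorem iter_label (h : Lab Q F) (hE : Edge Q) (n : ℕ) :
    ent ((nx Q)^[n] F) (fun x => x.1) = ent F (fun x => x.1) := by
  induction n with
  | zero => rfl
  | succ n ih =>
    rw [Function.iterate_succ_apply', (iter_lab h hE n).nx_label hE (fun x => x), ih]

theorem iter_apply [DecidableEq U] (h : Lab Q F) (hE : Edge Q) (n : ℕ) (R : ρ) (e' : U × U) :
    (nx Q)^[n] F (R, e') = ∑ e, F (R, e) * zp (kk Q) n e e' := by
  induction n generalizing e' with
  | zero =>
    show F (R, e') = ∑ e, F (R, e) * (if e = e' then 1 else 0)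
    simp
  | succ n ih =>
    rw [Function.iterate_succ_apply', nx_apply (iter_lab h hE n) hE]
    show _ = ∑ e, F (R, e) * ∑ c, zp (kk Q) n e c * kk Q c e'
    simp only [ih, Finset.sum_mul, Finset.mul_sum]
    rw [Finset.sum_comm]
    refine Finset.sum_congr rfl fun c _ => Finset.sum_congr rfl fun d _ => by ring

theorem zp_kk_nonneg [DecidableEq U] (hE : Edge Q) (n : ℕ) (a b : U × U) : 0 ≤ zp (kk Q) n a b := by
  induction n generalizing b with
  | zero =>
    show 0 ≤ (if a = b then (1 : ℝ) else 0)
    split_ifs <;> norm_num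
  | succ n ih => exact Finset.sum_nonneg fun c _ => mul_nonneg (ih c) (hE.kk_nn _ _)

theorem zp_kk_one [DecidableEq U] (hE : Edge Q) (n : ℕ) (a : U × U) (ha : Q a ≠ 0) :
    ∑ b, zp (kk Q) n a b = 1 := by
  have h1 : mar (PP Q n) (fun x => x.1) a = ∑ e, PP Q n (a, e) := mar_prod_fst _ _
  rw [PP_fst hE] at h1
  simp only [PP_apply hE] at h1
  rw [← Finset.mul_sum] at h1
  exact (mul_left_cancel₀ ha (by rw [mul_one]; exact h1)).symm

/-- **capacity**: a label knows at most as much about the state after `n` steps as the initial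
state does -/
theorem capacity [DecidableEq U] (h : Lab Q F) (hE : Edge Q) (n : ℕ) :
    ent F (fun x => x.1) + hP Q n - hQ Q ≤ ent ((nx Q)^[n] F) (fun x => x) := by
  set W := att F (fun x => x.2) (zp (kk Q) n) with hW
  have k0 : ∀ a b, 0 ≤ zp (kk Q) n a b := zp_kk_nonneg hE n
  have k1 : ∀ x, F x ≠ 0 → ∑ b, zp (kk Q) n x.2 b = 1 := fun x hx =>
    zp_kk_one hE n x.2 (h.ne_zero hE hx)
  have hWn : ∀ x, 0 ≤ W x := att_nonneg h.nn k0
  have e1 : ent ((nx Q)^[n] F) (fun x => x) = ent W (fun x => (x.1.1, x.2)) := by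
    refine ent_law fun a => ?_
    obtain ⟨R, e'⟩ := a
    rw [mar_id, iter_apply h hE, mar_drop]
    rfl
  have e2 := ent_att (P := F) (f := fun x => x.2) (K := zp (kk Q) n) h.nn k0 k1
    (fun x => x) (fun y => y.2) (fun _ => rfl)
  have e3 : ent W (fun x => (x.1.2, x.2)) = hP Q n := by
    unfold hP
    refine ent_law fun a => ?_
    obtain ⟨e, e'⟩ := a
    have := mar_att (P := F) (f := fun x => x.2) (K := zp (kk Q) n) (fun x => x.2) (fun y => y)
      (fun _ => rfl) e e'
    rw [mar_id, PP_apply hE, hW, this, h.snd]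
  have e4 : ent F (fun x => x.2) = hQ Q := h.ent_edge hE fun e => e
  rw [← hW, e3, e4] at e2
  have e5 := subm hWn (A := fun x => (x.1.1, x.2)) (B := fun x => x.1)
    (C := fun x => (x.1, x.2)) (D := fun x => x.1.1) (fun x y => by
      simp only [Prod.ext_iff]
      tauto) (fun x y => by
      simp only [Prod.ext_iff]
      tauto) (fun x y => by
      simp only [Prod.ext_iff]
      tauto)
  have e6 : ent W (fun x => x.1) = ent F (fun x => x) := ent_att_fst k1 fun x => x
  have e7 : ent W (fun x => x.1.1) = ent F (fun x => x.1) := ent_att_fst k1 fun x => x.1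
  rw [e6, e7] at e5
  rw [e1]
  linarith

/-- the joint entropy of two labels and the state -/
theorem two_labels {H : (ρ × ρ) × (U × U) → ℝ} (h : Lab Q H) (hE : Edge Q) :
    ent H (fun x => x) + hQ Q ≤ ent (mar H (fun x => (x.1.1, x.2))) (fun x => x) +
      ent (mar H (fun x => (x.1.2, x.2))) (fun x => x) := by
  have h1 := subm h.nn (A := fun x => (x.1.1, x.2)) (B := fun x => (x.1.2, x.2))
    (C := fun x => x) (D := fun x => x.2) (fun x y => by
      simp only [Prod.ext_iff]
      tauto) (fun x y => by
      simp only [Prod.ext_iff]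
      tauto) (fun x y => by
      simp only [Prod.ext_iff]
      tauto)
  have h2 : ent H (fun x => x.2) = hQ Q := h.ent_edge hE fun e => e
  rw [ent_mar, ent_mar]
  rw [h2] at h1
  exact h1

/-- **the recursive inequality**, in terms of entropies: with `I_j` the mutual information of the
label and the state after `j` steps, `v` that of the label and the second vertex, and `A_i` that
of the ends of a chain of length `i`, it is `I_(k + i) + I_k ≤ I_0 + v + A_i / 2 ^ k` -/
theorem levels [DecidableEq U] (hE : Edge Q) (k i : ℕ) : ∀ (ρ : Type) [Fintype ρ]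
    (F : ρ × (U × U) → ℝ), Lab Q F →
    ent F (fun x => x) + ent F (fun x => (x.1, x.2.2)) + hQ Q ≤
      ent ((nx Q)^[k + i] F) (fun x => x) + ent ((nx Q)^[k] F) (fun x => x) + aQ Q +
      (2 * hQ Q - hP Q i) / 2 ^ k := by
  induction k with
  | zero =>
    intro ρ _ F h
    have h1 := capacity h hE i
    have h2 := suba h.nn (h.tot hE) (A := fun x => x.1) (B := fun x => x.2.2)
      (C := fun x => (x.1, x.2.2)) (fun x y => by
        simp only [Prod.ext_iff]
        tauto)
    have h3 : ent F (fun x => x.2.2) = aQ Q := by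
      rw [← hE.ent_snd]
      exact h.ent_edge hE fun e => e.2
    rw [h3] at h2
    simp only [zero_add, pow_zero, div_one, Function.iterate_zero, id_eq]
    linarith
  | succ k ih =>
    intro ρ _ F h
    have hu := up_lab h hE
    have h1 := ih (ρ × ρ) (up Q F) hu
    -- the two labels
    have key : ∀ n, ent ((nx Q)^[n] (up Q F)) (fun x => x) + hQ Q ≤
        2 * ent ((nx Q)^[n + 1] F) (fun x => x) := by
      intro n
      have h2 := two_labels (iter_lab hu hE n) hE
      have h3 := iter_map hu hE (fun z : ρ × ρ => z.1) n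
      have h4 := iter_map hu hE (fun z : ρ × ρ => z.2) n
      rw [up_one h hE] at h3
      rw [up_two h hE] at h4
      rw [h3, h4, ← Function.iterate_succ_apply] at h2
      linarith
    have k1 := key (k + i)
    have k2 := key k
    have g1 := up_ge h hE
    have g2 := up_vertex h hE
    have g3 := ends_ge h hE
    have e1 : (2 * hQ Q - hP Q i) / 2 ^ (k + 1) = (2 * hQ Q - hP Q i) / 2 ^ k / 2 := by
      rw [pow_succ, div_div]
    have e2 : k + 1 + i = k + i + 1 := by omega
    rw [e1, e2]
    linarith

/-- the inequality for the ends of the chain -/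
theorem AA_levels [DecidableEq U] (hE : Edge Q) (n k i : ℕ) (hn : 2 ≤ n) :
    (2 * hQ Q - hP Q (n + k + i)) + (2 * hQ Q - hP Q (n + k)) ≤
      (2 * hQ Q - hP Q n) + (2 * aQ Q - h2Q Q) + (2 * hQ Q - hP Q i) / 2 ^ k := by
  have h1 := levels hE k i (U × U) (PP Q n) (PP_lab hE n)
  have h2 := hB_ge hE n hn
  have h3 : ∀ j, (nx Q)^[j] (PP Q n) = PP Q (n + j) := by
    intro j
    induction j with
    | zero => rfl
    | succ j ih =>
      rw [Function.iterate_succ_apply', ih]
      rfl
  have e1 : ent (PP Q n) (fun x => (x.1, x.2.2)) = hB Q n := rfl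
  have e2 : ∀ j, ent (PP Q j) (fun x => x) = hP Q j := fun j => rfl
  rw [h3, h3, e1, e2, e2, e2, ← add_assoc] at h1
  linarith

end Vale.Agent.P050.H655
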