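import Vale.Agent.P050.M18.Rec

/-!
Sequences which satisfy the recursive inequality.
-/

namespace Vale.Agent.P050.H655

open Finset Vale.Agent.P050.M18

/-- the scales -/
def scale (t : ℕ) : ℕ → ℕ
  | 0 => 2
  | j + 1 => scale t j + (j + t) + 2

theorem two_scale (t j : ℕ) : 2 * scale t j = j ^ 2 + (2 * t + 3) * j + 4 := by
  induction j with
  | zero => rfl
  | succ j ih =>
    show 2 * (scale t j + (j + t) + 2) = _
    have e : 2 * (scale t j + (j + t) + 2) = 2 * scale t j + 2 * (j + t) + 4 := by ring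
    rw [e, ih]
    ring

theorem two_le_scale (t j : ℕ) : 2 ≤ scale t j := by
  have := two_scale t j
  have h : 0 ≤ (2 * t + 3) * j := Nat.zero_le _
  nlinarith [Nat.zero_le (j ^ 2)]

theorem four_le_scale (t j : ℕ) (hj : 1 ≤ j) : 4 ≤ scale t j := by
  have := two_scale t j
  have h1 : 1 ≤ j ^ 2 := Nat.one_le_pow _ _ hj
  have h2 : 3 * 1 ≤ (2 * t + 3) * j := Nat.mul_le_mul (by omega) hj
  omega

variable {A : ℕ → ℝ} {r : ℝ} (h0 : ∀ n, 0 ≤ A n) (hm : ∀ n, A (n + 1) ≤ A n) (hr : 0 ≤ r)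
  (key : ∀ n k i, 2 ≤ n → A (n + k + i) + A (n + k) ≤ A n + r + A i / 2 ^ k)

include h0 hm hr key

omit h0 in
theorem scale_le (t j : ℕ) :
    A (scale t j) ≤ (1 + j / 2 ^ t) * (A 2 / 2 ^ j) + r := by
  induction j with
  | zero =>
    show A 2 ≤ _
    simp only [Nat.cast_zero, zero_div, add_zero, pow_zero, div_one, one_mul]
    linarith
  | succ j ih =>
    show A (scale t j + (j + t) + 2) ≤ _
    have h1 := key (scale t j) (j + t) 2 (two_le_scale t j)
    have h2 : A (scale t j + (j + t) + 2) ≤ A (scale t j + (j + t)) :=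
      anti_of_succ hm (by omega)
    have e1 : A 2 / 2 ^ (j + t) = A 2 / 2 ^ j / 2 ^ t := by rw [pow_add, div_div]
    have e2 : A 2 / 2 ^ (j + 1) = A 2 / 2 ^ j / 2 := by rw [pow_succ, div_div]
    rw [e1] at h1
    rw [e2]
    push_cast
    have e3 : (1 + (j + 1) / 2 ^ t) * (A 2 / 2 ^ j / 2) + r =
        ((1 + j / 2 ^ t) * (A 2 / 2 ^ j) + r + r + A 2 / 2 ^ j / 2 ^ t) / 2 := by ring
    rw [e3]
    linarith

/-- a small decrement -/
theorem scale_small (t s : ℕ) (hs : s ≤ 2 ^ t) : ∃ i, scale t s ≤ i ∧ i < scale t s + 4 ∧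
    2 * (A i - A (i + 1)) ≤ A 2 / 2 ^ s + r := by
  obtain ⟨i, hi1, hi2, hi3⟩ := exists_small h0 (scale t s) 4 (by norm_num)
  refine ⟨i, hi1, hi2, ?_⟩
  have h1 := scale_le hm hr key t s
  have h2 : (s : ℝ) / 2 ^ t ≤ 1 := by
    rw [div_le_one (by positivity)]
    exact_mod_cast hs
  have h3 : 0 ≤ A 2 / 2 ^ s := div_nonneg (h0 2) (by positivity)
  have h4 : (1 + (s : ℝ) / 2 ^ t) * (A 2 / 2 ^ s) ≤ 2 * (A 2 / 2 ^ s) :=
    mul_le_mul_of_nonneg_right (by linarith) h3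
  push_cast at hi3
  linarith

end Vale.Agent.P050.H655
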