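import Vale.Agent.P050.M18.BouquetMain
import Vale.Agent.P050.H655.Levels
import Vale.Agent.P050.H655.Seq

/-!
Moebius ladders, 4-cycles and the cube, with a smaller error.
-/

set_option linter.unusedSectionVars false

namespace Vale.Agent.P050.H655

open Finset Vale.Agent.P050.Cart Vale.Agent.P050.Join Vale.Agent.P050.M18 Vale.Agent.P050.H148
  Vale.Agent.P050.H180

/-- a small decrement of the mutual information, far from the end -/
def Small {X : Type} [Fintype X] [DecidableEq X] (G : SimpleGraph X) (N m : ℕ) : Prop :=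
  ∃ i : ℕ, 4 ≤ i ∧ 4 * i + 9 ≤ m ∧ 2 * (hP (Q4 G) (i + 1) - hP (Q4 G) i) ≤
    AA (Q4 G) 2 / N + (2 * aQ (Q4 G) - h2Q (Q4 G))

section graph

variable {X : Type} [Fintype X] (G : SimpleGraph X) (hG : ∃ x y, G.Adj x y)
include hG

theorem small_of [DecidableEq X] (s t m : ℕ) (hs : 1 ≤ s) (hst : s ≤ 2 ^ t)
    (hm : 2 * s ^ 2 + (4 * t + 6) * s + 29 ≤ m) : Small G (2 ^ s) m := by
  have hE := Q4_edge G hG
  obtain ⟨i, h1, h2, h3⟩ := scale_small (A := AA (Q4 G)) (r := 2 * aQ (Q4 G) - h2Q (Q4 G))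
    (fun n => by unfold AA; linarith [hP_le hE n])
    (fun n => by unfold AA; linarith [hP_mono hE n]) (r_nonneg hE)
    (fun n k i hn => by unfold AA; exact AA_levels hE n k i hn) t s hst
  have h4 := two_scale t s
  have h5 := four_le_scale t s hs
  have e1 : (4 * t + 6) * s = 2 * ((2 * t + 3) * s) := by ring
  refine ⟨i, by omega, by omega, ?_⟩
  have e : hP (Q4 G) (i + 1) - hP (Q4 G) i = AA (Q4 G) i - AA (Q4 G) (i + 1) := by
    unfold AA; ring
  rw [e]
  push_cast
  exact h3

/-- the inequality in terms of logarithms of numbers -/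
theorem gen_log [DecidableEq X] (N m : ℕ) (hN : 2 ≤ N) (hS : Small G N m) :
    ∃ i j : ℕ, m = i + 1 + j ∧ 4 * i + 9 ≤ m ∧
    (N * (2 * i + 3) + 4) *
      (3 * Real.log (∑ x, ∑ y, adj G x y) - 4 * Real.log (Fintype.card X)) +
      2 * j * N * (Real.log (tot G) - Real.log (∑ x, ∑ y, adj G x y)) ≤
      N * Real.log (tw (CG G) m) + Real.log (pr (CG G) 2) ∧
    0 < tw (CG G) m ∧ 0 < pr (CG G) 2 := by
  have hE := Q4_edge G hG
  have hC := Q4_four G hG
  obtain ⟨i, hi1, hi2, hi3⟩ := hS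
  obtain ⟨j, hj⟩ : ∃ j, m = i + 1 + j := ⟨m - i - 1, by omega⟩
  have h5 := ladder_log hE hC (T4_nn G hG) (fun e => rfl) (T4_right G hG)
    (fun x hx => T4_ne G hG hx) i j (by omega)
  have h6 := cube_log hE hC
  rw [← hj] at h5
  refine ⟨i, j, hj, by omega, ?_, h5.1, h6.1⟩
  have h7 := h5.2
  rw [T4_ent G hG] at h7
  have h8 := r_nonneg hE
  have h9 := hQ4_le G hG
  have h10 := aQ4_le G hG
  set D : ℝ := (N : ℝ) with hD
  set E := Real.log (∑ x, ∑ y, adj G x y) with hEd
  set ℓ := Real.log (Fintype.card X) with hℓ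
  set c4 := Real.log (tot G) with hc4
  set hh := hQ (Q4 G) with hhd
  set a := aQ (Q4 G) with had
  set r := 2 * a - h2Q (Q4 G) with hrd
  have hD2 : (2 : ℝ) ≤ D := by rw [hD]; exact_mod_cast hN
  -- the small decrement
  have h11 : D * (2 * (hP (Q4 G) (i + 1) - hP (Q4 G) i)) ≤ AA (Q4 G) 2 + D * r := by
    have h12 := mul_le_mul_of_nonneg_left hi3 (by linarith : (0 : ℝ) ≤ D)
    rw [mul_add, mul_div_cancel₀ _ (by linarith : D ≠ 0)] at h12
    exact h12
  have hi0 : (4 : ℝ) ≤ i := by exact_mod_cast hi1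
  have hj0 : (3 * i + 8 : ℝ) ≤ j := by
    have : 3 * i + 8 ≤ j := by omega
    exact_mod_cast this
  have h13 := mul_le_mul_of_nonneg_left h7 (by linarith : (0 : ℝ) ≤ D)
  have h14 := h6.2
  -- coefficient of the entropy of an edge
  have h15 : 0 ≤ (2 * j * D - 3 * (D * (2 * i + 3) + 4)) * (E - hh) := by
    refine mul_nonneg ?_ (by linarith)
    nlinarith
  have h16 : 0 ≤ (D * (2 * i + 3) + 4) * (ℓ - a) := by
    refine mul_nonneg ?_ (by linarith)
    nlinarith
  have h17 : 0 ≤ D * ((2 * i - 1) * r) := by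
    refine mul_nonneg (by linarith) (mul_nonneg (by linarith) h8)
  nlinarith [h11, h13, h14, h15, h16, h17]

/-- the inequality in terms of logarithms of numbers, with a common rung -/
theorem gen_pin [DecidableEq X] (N m : ℕ) (hN : 2 ≤ N) (hS : Small G N m) :
    ∃ i j : ℕ, m = i + 1 + j ∧ 4 * i + 9 ≤ m ∧
    (N * (2 * i + 3) + 4) *
      (3 * Real.log (∑ x, ∑ y, adj G x y) - 4 * Real.log (Fintype.card X)) +
      2 * j * N * (Real.log (tot G) - Real.log (∑ x, ∑ y, adj G x y)) ≤
      Real.log (∑ R, twR (CG G) m R ^ N * prR (CG G) 2 R) +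
        N * Real.log (∑ x, ∑ y, adj G x y) ∧
    0 < ∑ R, twR (CG G) m R ^ N * prR (CG G) 2 R := by
  have hE := Q4_edge G hG
  have hC := Q4_four G hG
  obtain ⟨i, hi1, hi2, hi3⟩ := hS
  obtain ⟨j, hj⟩ : ∃ j, m = i + 1 + j := ⟨m - i - 1, by omega⟩
  have h5 := ladder_pin hE hC (T4_nn G hG) (fun e => rfl) (T4_right G hG)
    (fun x hx => T4_ne G hG hx) i j (by omega)
  have h6 := cube_pin hE hC
  rw [← hj] at h5
  have hg := glue_log hE hC m N h5.1 h6.1
  refine ⟨i, j, hj, by omega, ?_, hg.1⟩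
  have h7 := h5.2
  rw [T4_ent G hG] at h7
  have hD2 : (2 : ℝ) ≤ N := by exact_mod_cast hN
  have h11 : (N : ℝ) * (2 * (hP (Q4 G) (i + 1) - hP (Q4 G) i)) ≤
      AA (Q4 G) 2 + N * (2 * aQ (Q4 G) - h2Q (Q4 G)) := by
    have h12 := mul_le_mul_of_nonneg_left hi3 (by linarith : (0 : ℝ) ≤ N)
    rw [mul_add, mul_div_cancel₀ _ (by linarith : (N : ℝ) ≠ 0)] at h12
    exact h12
  have hi0 : (4 : ℝ) ≤ i := by exact_mod_cast hi1
  have hj0 : (3 * i + 8 : ℝ) ≤ j := by
    have : 3 * i + 8 ≤ j := by omega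
    exact_mod_cast this
  exact pin_arith hD2 hi0 hj0 (r_nonneg hE) (hQ4_le G hG) (aQ4_le G hG) h11 h7 h6.2 hg.2

end graph

section density

variable {X : Type} [Fintype X] [Nonempty X] (G : SimpleGraph X)

/-- the inequality between logarithms -/
theorem gen_final [DecidableEq X] (hp : 0 < edgeDensity G) (N m : ℕ) (hN : 2 ≤ N)
    (hS : Small G N m) :
    48 * Real.log (edgeDensity G) + 3 * (2 * m + 1) * N *
      Real.log (homDensity (SimpleGraph.cycleGraph 4) G) ≤
    4 * N * Real.log (homDensity (moebiusLadder (2 * m + 1)) G) +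
      4 * Real.log (homDensity cubeGraph G) ∧
    0 < homDensity (SimpleGraph.cycleGraph 4) G ∧
    0 < homDensity (moebiusLadder (2 * m + 1)) G ∧ 0 < homDensity cubeGraph G := by
  have hG := exists_adj G hp
  have hn := card_pos' (X := X)
  obtain ⟨i, j, hij, hi, h1, h2, h3⟩ := gen_log G hG N m hN hS
  have h4 := tot_pos G hG
  rw [tot_num] at h4 h1
  rw [tw_num] at h2 h1
  rw [cube_num] at h3 h1
  rw [adj_sum'] at h1
  have hC : 0 < homDensity (SimpleGraph.cycleGraph 4) G := by
    rcases (hom_nn G (SimpleGraph.cycleGraph 4)).lt_or_eq with h | h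
    · exact h
    · rw [← h, zero_mul] at h4; exact absurd h4 (lt_irrefl _)
  have hM : 0 < homDensity (moebiusLadder (2 * m + 1)) G := by
    rcases (hom_nn G (moebiusLadder (2 * m + 1))).lt_or_eq with h | h
    · exact h
    · rw [← h, zero_mul] at h2; exact absurd h2 (lt_irrefl _)
  have hQ : 0 < homDensity cubeGraph G := by
    rcases (hom_nn G cubeGraph).lt_or_eq with h | h
    · exact h
    · rw [← h, zero_mul] at h3; exact absurd h3 (lt_irrefl _)
  refine ⟨?_, hC, hM, hQ⟩
  rw [Real.log_mul hp.ne' (by positivity), Real.log_mul hC.ne' (by positivity),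
    Real.log_mul hM.ne' (by positivity), Real.log_mul hQ.ne' (by positivity),
    Real.log_pow, Real.log_pow, Real.log_pow, Real.log_pow] at h1
  have h5 : 4 * Real.log (edgeDensity G) ≤ Real.log (homDensity (SimpleGraph.cycleGraph 4) G) := by
    have h6 := Real.log_le_log (by positivity) (four_ge G)
    rw [Real.log_pow] at h6
    push_cast at h6
    exact h6
  push_cast at h1
  set D : ℝ := (N : ℝ) with hD
  set lp := Real.log (edgeDensity G) with hlp
  set lC := Real.log (homDensity (SimpleGraph.cycleGraph 4) G) with hlC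
  set lM := Real.log (homDensity (moebiusLadder (2 * m + 1)) G) with hlM
  set lQ := Real.log (homDensity cubeGraph G) with hlQ
  set ℓ := Real.log (Fintype.card X) with hℓ
  have hD0 : (0 : ℝ) ≤ D := by rw [hD]; positivity
  have hmij : (m : ℝ) = i + 1 + j := by exact_mod_cast hij
  have hi' : (4 * i + 9 : ℝ) ≤ m := by exact_mod_cast hi
  -- `8 j ≥ 3 (2 m + 1)`
  have h7 : 0 ≤ (8 * j - 3 * (2 * m + 1) : ℝ) * (D * (lC - 4 * lp)) := by
    refine mul_nonneg ?_ (mul_nonneg hD0 (by linarith))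
    linarith
  rw [hmij] at h7 h1 ⊢
  nlinarith [h1, h7]

/-- the inequality between logarithms for the bouquet -/
theorem gen_bouq [DecidableEq X] (hp : 0 < edgeDensity G) (N m : ℕ) (hN : 2 ≤ N)
    (hS : Small G N m) :
    48 * Real.log (edgeDensity G) + 3 * (2 * m + 1) * N *
      Real.log (homDensity (SimpleGraph.cycleGraph 4) G) ≤
    4 * Real.log (homDensity (bouquet N (2 * m + 1)) G) + 4 * N * Real.log (edgeDensity G) ∧
    0 < homDensity (SimpleGraph.cycleGraph 4) G ∧
    0 < homDensity (bouquet N (2 * m + 1)) G := by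
  have hG := exists_adj G hp
  have hn := card_pos' (X := X)
  obtain ⟨i, j, hij, hi, h1, h2⟩ := gen_pin G hG N m hN hS
  have h4 := tot_pos G hG
  rw [tot_num] at h4 h1
  rw [bouq_num] at h2 h1
  rw [adj_sum'] at h1
  have hC : 0 < homDensity (SimpleGraph.cycleGraph 4) G := by
    rcases (hom_nn G (SimpleGraph.cycleGraph 4)).lt_or_eq with h | h
    · exact h
    · rw [← h, zero_mul] at h4; exact absurd h4 (lt_irrefl _)
  have hB : 0 < homDensity (bouquet N (2 * m + 1)) G := by
    rcases (hom_nn G (bouquet N (2 * m + 1))).lt_or_eq with h | h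
    · exact h
    · rw [← h, zero_mul] at h2; exact absurd h2 (lt_irrefl _)
  refine ⟨?_, hC, hB⟩
  rw [Real.log_mul hp.ne' (by positivity), Real.log_mul hC.ne' (by positivity),
    Real.log_mul hB.ne' (by positivity), Real.log_pow, Real.log_pow, Real.log_pow] at h1
  have h5 : 4 * Real.log (edgeDensity G) ≤ Real.log (homDensity (SimpleGraph.cycleGraph 4) G) := by
    have h6 := Real.log_le_log (by positivity) (four_ge G)
    rw [Real.log_pow] at h6
    push_cast at h6
    exact h6
  push_cast at h1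
  set lp := Real.log (edgeDensity G) with hlp
  set lC := Real.log (homDensity (SimpleGraph.cycleGraph 4) G) with hlC
  set lB := Real.log (homDensity (bouquet N (2 * m + 1)) G) with hlB
  set ℓ := Real.log (Fintype.card X) with hℓ
  have hD0 : (0 : ℝ) ≤ N := Nat.cast_nonneg N
  have hmij : (m : ℝ) = i + 1 + j := by exact_mod_cast hij
  have hi' : (4 * i + 9 : ℝ) ≤ m := by exact_mod_cast hi
  -- `8 j ≥ 3 (2 m + 1)`
  have h7 : 0 ≤ (8 * j - 3 * (2 * m + 1) : ℝ) * (N * (lC - 4 * lp)) := by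
    refine mul_nonneg ?_ (mul_nonneg hD0 (by linarith))
    linarith
  rw [hmij] at h7 h1 ⊢
  nlinarith [h1, h7]

end density

end Vale.Agent.P050.H655
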