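import Mathlib

/-!
Orbit averaging, abstract form.
-/

namespace Vale.Agent.P050.H655.Orb

open Finset

/-- AM-GM over a group and Jensen -/
theorem core {X B B' Γ : Type*} [Fintype X] [Fintype B] [DecidableEq B] [Fintype B'] [Fintype Γ]
    [Group Γ] [MulAction Γ B] (σ : Γ → X ≃ X) (w : X → ℝ) (hw : ∀ x, 0 ≤ w x)
    (hw1 : ∑ x, w x = 1) (hinv : ∀ g x, w (σ g x) = w x) (f : X → B → ℝ)
    (hf : ∀ x b, 0 ≤ f x b) (heq : ∀ g x b, f (σ g x) b = f x (g • b)) (φ : B' → B) (r : ℝ)
    (hr : 1 ≤ r)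
    (hc : ∀ b, (((univ : Finset (Γ × B')).filter fun p => p.1 • φ p.2 = b).card : ℝ) =
      r * Fintype.card Γ) :
    (∑ x, w x * ∏ b, f x b) ^ r ≤ ∑ x, w x * ∏ b', f x (φ b') := by
  have hΓ : (0 : ℝ) < Fintype.card Γ := by exact_mod_cast Fintype.card_pos
  have h0 : ∀ g : Γ, ∑ x, w x * ∏ b', f x (φ b') = ∑ x, w x * ∏ b', f x (g • φ b') := by
    intro g
    rw [← Equiv.sum_comp (σ g)]
    refine Finset.sum_congr rfl fun x _ => ?_
    rw [hinv]
    congr 1
    exact Finset.prod_congr rfl fun b' _ => heq g x _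
  have h1 : ∑ x, w x * ∏ b', f x (φ b') =
      ∑ x, w x * ∑ g : Γ, (1 / (Fintype.card Γ : ℝ)) * ∏ b', f x (g • φ b') := by
    have : ∑ x, w x * ∑ g : Γ, (1 / (Fintype.card Γ : ℝ)) * ∏ b', f x (g • φ b') =
        ∑ g : Γ, (1 / (Fintype.card Γ : ℝ)) * ∑ x, w x * ∏ b', f x (g • φ b') := by
      simp only [Finset.mul_sum]
      rw [Finset.sum_comm]
      refine Finset.sum_congr rfl fun g _ => Finset.sum_congr rfl fun x _ => ?_
      ring
    have h1' : ∀ g : Γ, (1 / (Fintype.card Γ : ℝ)) * ∑ x, w x * ∏ b', f x (g • φ b') =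
        (1 / (Fintype.card Γ : ℝ)) * ∑ x, w x * ∏ b', f x (φ b') := fun g => by rw [← h0 g]
    rw [this, Finset.sum_congr rfl fun g _ => h1' g, Finset.sum_const, Finset.card_univ,
      nsmul_eq_mul]
    field_simp
  have h2 : ∀ x, (∏ b, f x b) ^ r ≤
      ∑ g : Γ, (1 / (Fintype.card Γ : ℝ)) * ∏ b', f x (g • φ b') := by
    intro x
    have ha := Real.geom_mean_le_arith_mean_weighted (univ : Finset Γ)
      (fun _ => 1 / (Fintype.card Γ : ℝ)) (fun g => ∏ b', f x (g • φ b'))
      (fun _ _ => by positivity)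
      (by rw [Finset.sum_const, Finset.card_univ, nsmul_eq_mul]; field_simp)
      (fun g _ => Finset.prod_nonneg fun b' _ => hf _ _)
    refine le_trans (le_of_eq ?_) ha
    rw [Real.finsetProd_rpow _ _ (fun g _ => Finset.prod_nonneg fun b' _ => hf _ _)]
    have hb : ∏ g : Γ, ∏ b', f x (g • φ b') =
        ∏ b, f x b ^ ((univ : Finset (Γ × B')).filter fun p => p.1 • φ p.2 = b).card := by
      rw [← Fintype.prod_prod_type' (fun g b' => f x (g • φ b')),
        ← Finset.prod_fiberwise (univ : Finset (Γ × B')) (fun p => p.1 • φ p.2)]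
      refine Finset.prod_congr rfl fun b _ => ?_
      rw [Finset.prod_congr rfl (g := fun _ => f x b) fun p hp => by
        rw [(Finset.mem_filter.1 hp).2], Finset.prod_const]
    rw [hb, ← Real.finsetProd_rpow _ _ (fun b _ => pow_nonneg (hf _ _) _),
      ← Real.finsetProd_rpow _ _ (fun b _ => hf _ _)]
    refine Finset.prod_congr rfl fun b _ => ?_
    rw [← Real.rpow_natCast, ← Real.rpow_mul (hf _ _), hc b]
    congr 1
    field_simp
  calc (∑ x, w x * ∏ b, f x b) ^ r ≤ ∑ x, w x * (∏ b, f x b) ^ r :=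
        Real.rpow_arith_mean_le_arith_mean_rpow univ w (fun x => ∏ b, f x b) (fun x _ => hw x) hw1
          (fun x _ => Finset.prod_nonneg fun b _ => hf _ _) hr
    _ ≤ ∑ x, w x * ∑ g : Γ, (1 / (Fintype.card Γ : ℝ)) * ∏ b', f x (g • φ b') :=
        Finset.sum_le_sum fun x _ => mul_le_mul_of_nonneg_left (h2 x) (hw x)
    _ = _ := h1.symm

/-- the count from the orbits -/
theorem count {B B' Γ : Type*} [Fintype B] [DecidableEq B] [Fintype B'] [Fintype Γ]
    [Group Γ] [MulAction Γ B] (φ : B' → B) (r : ℝ)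
    (h : ∀ b, (Nat.card {b' // φ b' ∈ MulAction.orbit Γ b} : ℝ) =
      r * Nat.card (MulAction.orbit Γ b)) (b : B) :
    (((univ : Finset (Γ × B')).filter fun p => p.1 • φ p.2 = b).card : ℝ) =
      r * Fintype.card Γ := by
  classical
  have h1 : ((univ : Finset (Γ × B')).filter fun p => p.1 • φ p.2 = b).card =
      ∑ b' : B', ((univ : Finset Γ).filter fun g => g • φ b' = b).card := by
    rw [← Fintype.card_subtype]
    rw [Fintype.card_congr (β := Σ b' : B', {g : Γ // g • φ b' = b})
      { toFun := fun p => ⟨p.1.2, p.1.1, p.2⟩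
        invFun := fun q => ⟨(q.2.1, q.1), q.2.2⟩
        left_inv := fun _ => rfl
        right_inv := fun _ => rfl }, Fintype.card_sigma]
    exact Finset.sum_congr rfl fun b' _ => Fintype.card_subtype _
  have h2 : ∀ b' : B', ((univ : Finset Γ).filter fun g => g • φ b' = b).card =
      if φ b' ∈ MulAction.orbit Γ b then Fintype.card (MulAction.stabilizer Γ b) else 0 := by
    intro b'
    split_ifs with hb
    · obtain ⟨g₀, hg₀⟩ := hb
      rw [← Fintype.card_subtype]
      refine Fintype.card_congr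
        { toFun := fun g => ⟨g.1 * g₀, ?_⟩
          invFun := fun s => ⟨s.1 * g₀⁻¹, ?_⟩
          left_inv := fun g => ?_
          right_inv := fun s => ?_ }
      · rw [MulAction.mem_stabilizer_iff, mul_smul]
        simp only at hg₀
        rw [hg₀]
        exact g.2
      · simp only at hg₀
        rw [← hg₀, mul_smul, inv_smul_smul]
        exact s.2
      · exact Subtype.ext (by simp)
      · exact Subtype.ext (by simp)
    · rw [Finset.card_eq_zero, Finset.filter_eq_empty_iff]
      intro g _ hg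
      exact hb ⟨g⁻¹, by
        change g⁻¹ • b = φ b'
        rw [← hg, inv_smul_smul]⟩
  have h3 : (Fintype.card (MulAction.orbit Γ b)) * Fintype.card (MulAction.stabilizer Γ b) =
      Fintype.card Γ := MulAction.card_orbit_mul_card_stabilizer_eq_card_group Γ b
  have h4 := h b
  rw [Nat.card_eq_fintype_card, Nat.card_eq_fintype_card, Fintype.card_subtype] at h4
  rw [h1, Finset.sum_congr rfl fun b' _ => h2 b', ← Finset.sum_filter, Finset.sum_const,
    smul_eq_mul, Nat.cast_mul, h4, ← h3, Nat.cast_mul]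
  ring

end Vale.Agent.P050.H655.Orb
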