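import Vale.Agent.P050.H655.Orbit

/-!
Orbit averaging: exponents and edge counts.
-/

namespace Vale.Agent.P050.H655.Orb

open Finset

theorem sum_orb {B B' Γ : Type*} [Fintype B] [Fintype B'] [Fintype Γ]
    [Group Γ] [MulAction Γ B] (φ : B' → B) (r : ℝ)
    (h : ∀ b, (Nat.card {b' // φ b' ∈ MulAction.orbit Γ b} : ℝ) =
      r * Nat.card (MulAction.orbit Γ b)) (F : B → ℝ) (hF : ∀ (g : Γ) b, F (g • b) = F b) :
    ∑ b', F (φ b') = r * ∑ b, F b := by
  classical
  have hΓ : (0 : ℝ) < Fintype.card Γ := by exact_mod_cast Fintype.card_pos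
  have h1 : ∑ p : Γ × B', F (p.1 • φ p.2) = Fintype.card Γ * ∑ b', F (φ b') := by
    rw [Fintype.sum_prod_type]
    simp only [hF]
    rw [Finset.sum_const, Finset.card_univ, nsmul_eq_mul]
  have h2 : ∑ p : Γ × B', F (p.1 • φ p.2) = Fintype.card Γ * (r * ∑ b, F b) := by
    rw [← Finset.sum_fiberwise (univ : Finset (Γ × B')) (fun p => p.1 • φ p.2), Finset.mul_sum,
      Finset.mul_sum]
    refine Finset.sum_congr rfl fun b _ => ?_
    rw [Finset.sum_congr rfl (g := fun _ => F b) fun p hp => by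
      rw [(Finset.mem_filter.1 hp).2], Finset.sum_const, nsmul_eq_mul, count φ r h b]
    ring
  exact mul_left_cancel₀ hΓ.ne' (h1.symm.trans h2)

/-- the edges of `bip E` -/
theorem card_edge {A B : Type} (E : A → B → Prop) :
    Nat.card (bip E).edgeSet = Nat.card {p : A × B // E p.1 p.2} := by
  symm
  refine Nat.card_congr (Equiv.ofBijective
    (fun p => (⟨s(Sum.inl p.1.1, Sum.inr p.1.2), p.2⟩ : (bip E).edgeSet)) ⟨?_, ?_⟩)
  · rintro ⟨⟨a, b⟩, h⟩ ⟨⟨c, d⟩, h'⟩ he
    have := congrArg Subtype.val he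
    simp only [Sym2.eq_iff, Sum.inl.injEq, Sum.inr.injEq, reduceCtorEq, and_self, or_false] at this
    exact Subtype.ext (Prod.ext this.1 this.2)
  · rintro ⟨e, he⟩
    induction e using Sym2.ind with
    | _ u v =>
      rcases u with a | b <;> rcases v with c | d
      · exact (he : False).elim
      · exact ⟨⟨(a, d), he⟩, rfl⟩
      · exact ⟨⟨(c, b), he⟩, Subtype.ext Sym2.eq_swap⟩
      · exact (he : False).elim

theorem edge_orb {A B B' Γ : Type} [Finite A] [Finite B] [Finite B'] [Group Γ] [Finite Γ]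
    [MulAction Γ A] [MulAction Γ B] (E : A → B → Prop)
    (hE : ∀ (g : Γ) a b, E (g • a) (g • b) ↔ E a b) (φ : B' → B) (r : ℝ)
    (horb : ∀ b, (Nat.card {b' // φ b' ∈ MulAction.orbit Γ b} : ℝ) =
      r * Nat.card (MulAction.orbit Γ b)) :
    (Nat.card (bip fun a b' => E a (φ b')).edgeSet : ℝ) = r * Nat.card (bip E).edgeSet := by
  classical
  have := Fintype.ofFinite A
  have := Fintype.ofFinite B
  have := Fintype.ofFinite B'
  have := Fintype.ofFinite Γ
  have key : ∀ (C : Type) [Fintype C] (F : A → C → Prop),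
      (Nat.card (bip F).edgeSet : ℝ) = ∑ c : C, (Nat.card {a // F a c} : ℝ) := by
    intro C _ F
    rw [card_edge, Nat.card_congr (β := Σ c : C, {a : A // F a c})
      { toFun := fun p => ⟨p.1.2, p.1.1, p.2⟩
        invFun := fun q => ⟨(q.2.1, q.1), q.2.2⟩
        left_inv := fun _ => rfl
        right_inv := fun _ => rfl }, Nat.card_eq_fintype_card, Fintype.card_sigma]
    push_cast
    exact Finset.sum_congr rfl fun c _ => by rw [Nat.card_eq_fintype_card]
  rw [key, key]
  refine sum_orb φ r horb (fun b => (Nat.card {a // E a b} : ℝ)) fun g b => ?_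
  congr 1
  refine Nat.card_congr
    { toFun := fun a => ⟨g⁻¹ • a.1, by rw [← hE g, smul_inv_smul]; exact a.2⟩
      invFun := fun a => ⟨g • a.1, (hE g _ _).2 a.2⟩
      left_inv := fun a => Subtype.ext (by simp)
      right_inv := fun a => Subtype.ext (by simp) }

theorem edgeDensity_nonneg' {U : Type*} (G : SimpleGraph U) : 0 ≤ edgeDensity G := by
  unfold edgeDensity; positivity

theorem homDensity_nonneg' {V U : Type*} (H : SimpleGraph V) (G : SimpleGraph U) :
    0 ≤ homDensity H G := by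
  unfold homDensity; positivity

/-- exponents pass -/
theorem orb_exp {A B B' Γ : Type} [Finite A] [Finite B] [Finite B'] [Group Γ] [Finite Γ]
    [MulAction Γ A] [MulAction Γ B] (E : A → B → Prop)
    (hE : ∀ (g : Γ) a b, E (g • a) (g • b) ↔ E a b) (φ : B' → B) (r : ℝ) (hr : 1 ≤ r)
    (horb : ∀ b, (Nat.card {b' // φ b' ∈ MulAction.orbit Γ b} : ℝ) =
      r * Nat.card (MulAction.orbit Γ b)) (ψ : ℝ) {U : Type} [Finite U] [Nonempty U]
    (G : SimpleGraph U) (h : edgeDensity G ^ ψ ≤ homDensity (bip E) G) :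
    edgeDensity G ^ (r * ψ) ≤ homDensity (bip fun a b' => E a (φ b')) G := by
  have h0 := edgeDensity_nonneg' G
  refine le_trans ?_ (bip_pow E hE φ r hr horb G)
  rw [mul_comm, Real.rpow_mul h0]
  exact Real.rpow_le_rpow (Real.rpow_nonneg h0 _) h (by linarith)

/-- the Sidorenko inequality passes -/
theorem orb_sid {A B B' Γ : Type} [Finite A] [Finite B] [Finite B'] [Group Γ] [Finite Γ]
    [MulAction Γ A] [MulAction Γ B] (E : A → B → Prop)
    (hE : ∀ (g : Γ) a b, E (g • a) (g • b) ↔ E a b) (φ : B' → B) (r : ℝ) (hr : 1 ≤ r)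
    (horb : ∀ b, (Nat.card {b' // φ b' ∈ MulAction.orbit Γ b} : ℝ) =
      r * Nat.card (MulAction.orbit Γ b)) {U : Type} [Finite U] [Nonempty U]
    (G : SimpleGraph U)
    (h : edgeDensity G ^ Nat.card (bip E).edgeSet ≤ homDensity (bip E) G) :
    edgeDensity G ^ Nat.card (bip fun a b' => E a (φ b')).edgeSet ≤
      homDensity (bip fun a b' => E a (φ b')) G := by
  have h1 := orb_exp E hE φ r hr horb (Nat.card (bip E).edgeSet : ℝ) G
    (by rw [Real.rpow_natCast]; exact h)
  rw [← edge_orb E hE φ r horb, Real.rpow_natCast] at h1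
  exact h1

end Vale.Agent.P050.H655.Orb
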