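import Vale.Agent.P050.H655.OrbEdge
import Vale.Agent.P050.Lev.KSid

/-!
Orbit averaging: two-sided weighted form.
-/

namespace Vale.Agent.P050.H655.Orb

open Finset Vale.Agent.P050.Lev

/-- the 2-colouring of `bip E` in which `A` has the colour `s` -/
def sd (A B : Type) (s : Bool) : A ⊕ B → Bool := Sum.elim (fun _ => s) (fun _ => !s)

open Classical in
/-- weights of the common neighbours -/
noncomputable def wn {A B U : Type} [Fintype A] [Fintype U] (ν : U → ℝ) (W : U → U → ℝ)
    (E : A → B → Prop) (x : A → U) (b : B) : ℝ :=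
  ∑ u, ν u * ∏ a, if E a b then W (x a) u else 1

theorem wn_nonneg {A B U : Type} [Fintype A] [Fintype U] (ν : U → ℝ) (W : U → U → ℝ)
    (hν : ∀ u, 0 ≤ ν u) (hW : ∀ x y, 0 ≤ W x y) (E : A → B → Prop) (x : A → U) (b : B) :
    0 ≤ wn ν W E x b := by
  unfold wn
  refine Finset.sum_nonneg fun u _ => mul_nonneg (hν u) (Finset.prod_nonneg fun a _ => ?_)
  split_ifs
  · exact hW _ _
  · exact zero_le_one

/-- the kernel, with the vertex of `A` first -/
def ker {U : Type} (s : Bool) (W : U → U → ℝ) : U → U → ℝ :=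
  fun x y => if s then W y x else W x y

open Classical in
theorem prod_side {A B : Type} [Fintype A] [Fintype B] (E : A → B → Prop) (s : Bool)
    (z : (A ⊕ B) × (A ⊕ B) → ℝ) :
    ∏ e ∈ sideEdges (bip E) (sd A B s), z e =
      ∏ a, ∏ b, if E a b then z (if s then (Sum.inr b, Sum.inl a) else (Sum.inl a, Sum.inr b))
        else 1 := by
  unfold sideEdges
  rw [Finset.prod_filter, Fintype.prod_prod_type, Fintype.prod_sum_type]
  simp only [Fintype.prod_sum_type]
  cases s
  · simp [bip, sd]
  · simp [bip, sd]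
    rw [Finset.prod_comm]

open Classical in
theorem ksum {A B U : Type} [Fintype A] [Fintype B] [DecidableEq A] [DecidableEq B] [Fintype U]
    (E : A → B → Prop) (s : Bool) (m : Bool → U → ℝ) (W : U → U → ℝ) :
    ∑ z : A ⊕ B → U, (∏ v, m (sd A B s v) (z v)) *
        ∏ e ∈ sideEdges (bip E) (sd A B s), W (z e.1) (z e.2) =
      ∑ x : A → U, (∏ a, m s (x a)) * ∏ b, wn (m (!s)) (ker s W) E x b := by
  have h1 : ∀ z : A ⊕ B → U, (∏ v, m (sd A B s v) (z v)) *
        ∏ e ∈ sideEdges (bip E) (sd A B s), W (z e.1) (z e.2) =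
      (∏ a, m s (z (Sum.inl a))) * ∏ b, (m (!s) (z (Sum.inr b)) *
        ∏ a, if E a b then ker s W (z (Sum.inl a)) (z (Sum.inr b)) else 1) := by
    intro z
    rw [prod_side E s (fun e => W (z e.1) (z e.2)), Fintype.prod_sum_type, Finset.prod_comm,
      Finset.prod_mul_distrib, mul_assoc]
    congr 1
    congr 1
    refine Finset.prod_congr rfl fun b _ => Finset.prod_congr rfl fun a _ => ?_
    cases s <;> rfl
  rw [Finset.sum_congr rfl fun z _ => h1 z,
    ← Equiv.sum_comp (Equiv.sumArrowEquivProdArrow A B U).symm, Fintype.sum_prod_type]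
  refine Finset.sum_congr rfl fun x _ => ?_
  unfold wn
  rw [Finset.prod_univ_sum (fun _ => univ), Fintype.piFinset_univ, Finset.mul_sum]
  rfl

open Classical in
theorem card_side {A B : Type} [Fintype A] [Fintype B] (E : A → B → Prop) (s : Bool) :
    (sideEdges (bip E) (sd A B s)).card = Nat.card (bip E).edgeSet := by
  have h := prod_side E s (fun _ => (2 : ℝ))
  rw [Finset.prod_const] at h
  have h2 : ∏ a, ∏ b, (if E a b then (2 : ℝ) else 1) = 2 ^ Nat.card {p : A × B // E p.1 p.2} := by
    rw [← Fintype.prod_prod_type' (fun a b => if E a b then (2 : ℝ) else 1),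
      ← Finset.prod_filter, Finset.prod_const, Nat.card_eq_fintype_card, Fintype.card_subtype]
  rw [h2] at h
  rw [card_edge]
  exact_mod_cast (pow_right_injective₀ (by norm_num : (0 : ℝ) < 2) (by norm_num)) h

theorem wn_mv {A B Γ : Type} [Fintype A] [Group Γ] [MulAction Γ A] [MulAction Γ B] {U : Type}
    [Fintype U] (ν : U → ℝ) (W : U → U → ℝ) (E : A → B → Prop)
    (hE : ∀ (g : Γ) a b, E (g • a) (g • b) ↔ E a b)
    (g : Γ) (x : A → U) (b : B) : wn ν W E (mv U g x) b = wn ν W E x (g • b) := by
  classical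
  unfold wn
  refine Finset.sum_congr rfl fun u _ => ?_
  congr 1
  rw [← Equiv.prod_comp (MulAction.toPerm g : Equiv.Perm A)
    (fun a => if E a (g • b) then W (x a) u else 1)]
  refine Finset.prod_congr rfl fun a _ => ?_
  have h1 : (MulAction.toPerm g : Equiv.Perm A) a = g • a := rfl
  rw [h1]
  by_cases h : E a b
  · rw [if_pos h, if_pos ((hE g a b).2 h)]
    rfl
  · rw [if_neg h, if_neg fun h' => h ((hE g a b).1 h')]

/-- the two-sided inequality passes -/
theorem orb_gsid {A B B' Γ : Type} [Fintype A] [Fintype B] [Fintype B'] [DecidableEq A]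
    [DecidableEq B] [DecidableEq B'] [Group Γ] [Finite Γ]
    [MulAction Γ A] [MulAction Γ B] (E : A → B → Prop)
    (hE : ∀ (g : Γ) a b, E (g • a) (g • b) ↔ E a b) (φ : B' → B) (r : ℝ) (hr : 1 ≤ r)
    (horb : ∀ b, (Nat.card {b' // φ b' ∈ MulAction.orbit Γ b} : ℝ) =
      r * Nat.card (MulAction.orbit Γ b)) (s : Bool) (h : GSid (bip E) (sd A B s)) :
    GSid (bip fun a b' => E a (φ b')) (sd A B' s) := by
  classical
  have := Fintype.ofFinite Γ
  refine ⟨?_, ?_, ?_⟩
  · rintro (a | b) (c | d) hh
    · exact hh.elim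
    · cases s <;> simp [sd]
    · cases s <;> simp [sd]
    · exact hh.elim
  · intro e he
    exact (Finset.mem_filter.1 he).2.2
  · intro U _ m W hm hm1 hW
    have hp := h.2.2 U m W hm hm1 hW
    have hW' : ∀ x y, 0 ≤ ker s W x y := by
      intro x y
      unfold ker
      split_ifs
      · exact hW _ _
      · exact hW _ _
    have hc := core (mv U : Γ → (A → U) ≃ (A → U)) (fun x => ∏ a, m s (x a))
      (fun x => Finset.prod_nonneg fun a _ => hm _ _)
      (by
        have := Finset.prod_univ_sum (fun _ : A => (univ : Finset U)) (fun _ u => m s u)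
        rw [Fintype.piFinset_univ] at this
        rw [← this]
        simp [hm1])
      (fun g x => Equiv.prod_comp (MulAction.toPerm g : Equiv.Perm A) (fun a => m s (x a)))
      (fun x b => wn (m (!s)) (ker s W) E x b)
      (fun x b => wn_nonneg _ _ (hm _) hW' E x b)
      (fun g x b => wn_mv _ _ E hE g x b) φ r hr (count φ r horb)
    rw [ksum, card_side] at hp
    rw [ksum, card_side]
    have h0 : 0 ≤ ∑ x, ∑ y, m false x * m true y * W x y :=
      Finset.sum_nonneg fun x _ => Finset.sum_nonneg fun y _ =>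
        mul_nonneg (mul_nonneg (hm _ _) (hm _ _)) (hW _ _)
    refine le_trans ?_ hc
    rw [← Real.rpow_natCast, edge_orb E hE φ r horb, mul_comm r, Real.rpow_mul h0,
      Real.rpow_natCast]
    exact Real.rpow_le_rpow (pow_nonneg h0 _) hp (by linarith)

end Vale.Agent.P050.H655.Orb
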