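import Vale.Agent.P050.H655.OrbCore
import Vale.Agent.P050.TDefs

/-!
Orbit averaging: right vertices of a bipartite graph taken with arbitrary multiplicities.
-/

namespace Vale.Agent.P050.H655.Orb

open Finset

/-- the bipartite graph with parts `A`, `B` and edges `a b`, `E a b` -/
def bip {A B : Type} (E : A → B → Prop) : SimpleGraph (A ⊕ B) where
  Adj u v := match u, v with
    | .inl a, .inr b => E a b
    | .inr b, .inl a => E a b
    | _, _ => False
  symm := ⟨by rintro (a | b) (c | d) h <;> exact h⟩
  loopless := ⟨by rintro (a | b) h <;> exact h⟩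

open Classical in
/-- proportion of common neighbours of the images of the neighbours of `b` -/
noncomputable def cn {A B U : Type} [Fintype U] (G : SimpleGraph U) (E : A → B → Prop)
    (x : A → U) (b : B) : ℝ :=
  ((univ.filter fun u : U => ∀ a, E a b → G.Adj (x a) u).card : ℝ) / (Fintype.card U : ℝ)

theorem cn_nonneg {A B U : Type} [Fintype U] (G : SimpleGraph U) (E : A → B → Prop)
    (x : A → U) (b : B) : 0 ≤ cn G E x b := by unfold cn; positivity

section
variable {A B : Type} [Fintype A] [DecidableEq A] [Fintype B] {U : Type} [Fintype U]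

/-- homomorphisms from `bip E` -/
def homEquiv (G : SimpleGraph U) (E : A → B → Prop) :
    (bip E →g G) ≃ (Σ x : A → U, ∀ b : B, {u : U // ∀ a, E a b → G.Adj (x a) u}) where
  toFun f := ⟨fun a => f (.inl a), fun b => ⟨f (.inr b), fun a h =>
    f.map_rel (show (bip E).Adj (.inl a) (.inr b) from h)⟩⟩
  invFun p := ⟨Sum.elim p.1 (fun b => (p.2 b).1), by
    rintro (a | b) (c | d) h
    · exact h.elim
    · exact (p.2 d).2 a h
    · exact ((p.2 b).2 c h).symm
    · exact h.elim⟩
  left_inv f := by
    ext v
    rcases v with a | b <;> rfl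
  right_inv p := by
    rcases p with ⟨x, y⟩
    rfl

theorem homDensity_bip [Nonempty U] (G : SimpleGraph U) (E : A → B → Prop) :
    homDensity (bip E) G =
      (∑ x : A → U, ∏ b : B, cn G E x b) / (Fintype.card U : ℝ) ^ Fintype.card A := by
  classical
  have hU : (0 : ℝ) < Fintype.card U := by exact_mod_cast Fintype.card_pos
  unfold homDensity
  rw [Nat.card_congr (homEquiv G E), Nat.card_eq_fintype_card, Fintype.card_sigma,
    Nat.card_eq_fintype_card, Nat.card_eq_fintype_card, Fintype.card_sum, pow_add,
    ← div_div, div_right_comm]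
  congr 1
  push_cast
  rw [Finset.sum_div]
  refine Finset.sum_congr rfl fun x _ => ?_
  rw [Fintype.card_pi]
  push_cast
  unfold cn
  rw [Finset.prod_div_distrib, Finset.prod_const, Finset.card_univ]
  congr 1
  refine Finset.prod_congr rfl fun b _ => ?_
  rw [Fintype.card_subtype]
  congr!

end

/-- the group moves the maps -/
def mv {A Γ : Type} [Group Γ] [MulAction Γ A] (U : Type) (g : Γ) : (A → U) ≃ (A → U) where
  toFun x a := x (g • a)
  invFun x a := x (g⁻¹ • a)
  left_inv x := by ext a; simp
  right_inv x := by ext a; simp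

theorem cn_mv {A B Γ : Type} [Group Γ] [MulAction Γ A] [MulAction Γ B] {U : Type} [Fintype U]
    (G : SimpleGraph U) (E : A → B → Prop) (hE : ∀ (g : Γ) a b, E (g • a) (g • b) ↔ E a b)
    (g : Γ) (x : A → U) (b : B) : cn G E (mv U g x) b = cn G E x (g • b) := by
  classical
  have : (univ.filter fun u : U => ∀ a, E a b → G.Adj (mv U g x a) u) =
      univ.filter fun u : U => ∀ a, E a (g • b) → G.Adj (x a) u := by
    refine Finset.filter_congr fun u _ => ?_
    constructor
    · intro h a ha
      have := h (g⁻¹ • a) (by rwa [← hE g, smul_inv_smul])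
      simpa [mv] using this
    · intro h a ha
      exact h (g • a) ((hE g a b).2 ha)
  unfold cn
  congr 2
  convert congrArg Finset.card this

/-- **Orbit averaging.** `Γ` acts on the bipartite graph with parts `A`, `B`; the vertices of `B`
are taken with multiplicities (`φ : B' → B`) whose sum over each orbit is `r` times its length,
`r ≥ 1`. -/
theorem bip_pow {A B B' Γ : Type} [Finite A] [Finite B] [Finite B'] [Group Γ] [Finite Γ]
    [MulAction Γ A] [MulAction Γ B] (E : A → B → Prop)
    (hE : ∀ (g : Γ) a b, E (g • a) (g • b) ↔ E a b) (φ : B' → B) (r : ℝ) (hr : 1 ≤ r)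
    (horb : ∀ b, (Nat.card {b' // φ b' ∈ MulAction.orbit Γ b} : ℝ) =
      r * Nat.card (MulAction.orbit Γ b)) {U : Type} [Finite U] [Nonempty U]
    (G : SimpleGraph U) :
    homDensity (bip E) G ^ r ≤ homDensity (bip fun a b' => E a (φ b')) G := by
  classical
  have := Fintype.ofFinite A
  have := Fintype.ofFinite B
  have := Fintype.ofFinite B'
  have := Fintype.ofFinite Γ
  have := Fintype.ofFinite U
  have hU : (0 : ℝ) < Fintype.card U := by exact_mod_cast Fintype.card_pos
  have h := core (mv U : Γ → (A → U) ≃ (A → U))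
    (fun _ => 1 / (Fintype.card U : ℝ) ^ Fintype.card A) (fun _ => by positivity)
    (by
      rw [Finset.sum_const, Finset.card_univ, nsmul_eq_mul, Fintype.card_fun]
      push_cast
      field_simp)
    (fun _ _ => rfl) (fun x b => cn G E x b) (fun x b => cn_nonneg G E x b)
    (fun g x b => cn_mv G E hE g x b) φ r hr (count φ r horb)
  rw [homDensity_bip, homDensity_bip]
  have e1 : ∀ (C : Type) [Fintype C] (F : A → C → Prop),
      (∑ x : A → U, ∏ b : C, cn G F x b) / (Fintype.card U : ℝ) ^ Fintype.card A =
        ∑ x : A → U, 1 / (Fintype.card U : ℝ) ^ Fintype.card A * ∏ b : C, cn G F x b := by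
    intro C _ F
    rw [Finset.sum_div]
    exact Finset.sum_congr rfl fun x _ => by ring
  rw [e1, e1]
  exact h

end Vale.Agent.P050.H655.Orb
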