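import Vale.Agent.P050.M18.Fresh

/-!
Two conditionally independent copies of a label, attached to the next edge of the chain.
-/

set_option linter.unusedSectionVars false

namespace Vale.Agent.P050.H655

open Finset Vale.Agent.P050.Cart Vale.Agent.P050.Join Vale.Agent.P050.M18

section general

variable {Ω β γ δ : Type} [Fintype Ω] [Fintype β] [Fintype γ] [Fintype δ]

theorem sum_pair (P : Ω → ℝ) (c : Ω → δ) (y : Ω → γ) (H : γ → ℝ) (d : δ) :
    ∑ u, mar P (fun ω => (c ω, y ω)) (d, u) * H u =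
      ∑ ω, P ω * (open Classical in if c ω = d then H (y ω) else 0) := by
  classical
  have h := sum_mar P (fun ω => (c ω, y ω)) (fun z => if z.1 = d then H z.2 else 0)
  rw [Fintype.sum_prod_type, Finset.sum_eq_single d] at h
  · simp only [if_true] at h
    rw [h]
  · intro d' _ hd
    refine Finset.sum_eq_zero fun u _ => ?_
    simp only
    rw [if_neg hd, mul_zero]
  · intro hn; exact absurd (mem_univ _) hn

theorem ker_map (P : Ω → ℝ) (c : Ω → δ) (y : Ω → γ) (φ : γ → β) (d : δ) (H : β → ℝ) :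
    ∑ u, ker P c y d u * H (φ u) = ∑ b, ker P c (fun ω => φ (y ω)) d b * H b := by
  unfold ker
  have h1 := sum_pair P c y (fun u => H (φ u)) d
  have h2 := sum_pair P c (fun ω => φ (y ω)) H d
  have e1 : ∀ u, mar P (fun ω => (c ω, y ω)) (d, u) / mar P c d * H (φ u) =
      (mar P (fun ω => (c ω, y ω)) (d, u) * H (φ u)) / mar P c d := fun u => by ring
  have e2 : ∀ b, mar P (fun ω => (c ω, φ (y ω))) (d, b) / mar P c d * H b =
      (mar P (fun ω => (c ω, φ (y ω))) (d, b) * H b) / mar P c d := fun u => by ring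
  simp only [e1, e2]
  rw [← Finset.sum_div, ← Finset.sum_div, h1, h2]

/-- the law of a function of the copy -/
theorem cop_map (P : Ω → ℝ) (c : Ω → δ) (y : Ω → γ) (φ : γ → β) :
    mar (cop P c y) (fun x => (x.1, φ x.2)) = cop P c (fun ω => φ (y ω)) := by
  funext a
  rw [← mar_id (cop P c fun ω => φ (y ω)) a]
  refine mar_of_sum (fun G => ?_) a
  unfold cop
  rw [sum_att, sum_att (fun x => G x)]
  refine Finset.sum_congr rfl fun ω _ => ?_
  congr 1
  exact ker_map P c y φ (c ω) (fun b => G (ω, b))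

/-- the entropy of a function of the copy -/
theorem cop_ent_map {P : Ω → ℝ} (hP : ∀ ω, 0 ≤ P ω) (c : Ω → δ) (y : Ω → γ) (φ : γ → β)
    {α : Type} [Fintype α] (g : Ω → α) (k : α → δ) (hk : ∀ ω, c ω = k (g ω)) :
    ent (cop P c y) (fun x => (g x.1, φ x.2)) =
      ent P g + (ent P (fun ω => (c ω, φ (y ω))) - ent P c) := by
  have h1 := ent_mar (cop P c y) (fun x => (x.1, φ x.2)) (fun z => (g z.1, z.2))
  rw [cop_map P c y φ] at h1
  rw [← h1]
  exact cop_ent hP c (fun ω => φ (y ω)) g k hk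

end general

variable {U ρ : Type} [Fintype U] [Fintype ρ]

/-- a second copy of the label and of the second vertex, given the ends of the cherry -/
noncomputable def S2 (Q : U × U → ℝ) (F : ρ × (U × U) → ℝ) :
    ((ρ × (U × U)) × U) × (ρ × U) → ℝ :=
  cop (A1 Q F) (fun x => (x.1.2.1, x.2)) (fun x => (x.1.1, x.1.2.2))

/-- and a third copy of the second vertex -/
noncomputable def S3 (Q : U × U → ℝ) (F : ρ × (U × U) → ℝ) :
    (((ρ × (U × U)) × U) × (ρ × U)) × U → ℝ :=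
  cop (S2 Q F) (fun x => (x.1.1.2.1, x.1.2)) (fun x => x.1.1.2.2)

/-- the pair of labels and the next edge -/
noncomputable def up (Q : U × U → ℝ) (F : ρ × (U × U) → ℝ) : (ρ × ρ) × (U × U) → ℝ :=
  mar (S3 Q F) (fun x => ((x.1.1.1.1, x.1.2.1), (x.2, x.1.1.2)))

variable {Q : U × U → ℝ} {F : ρ × (U × U) → ℝ}

/-- when a copy gives the next state -/
theorem nx_of_law {Ω : Type} [Fintype Ω] (P : Ω → ℝ) (z : Ω → ρ) (c : Ω → U × U) (y : Ω → U)
    (h1 : mar P (fun ω => (z ω, c ω)) = mar (A1 Q F) (fun x => (x.1.1, (x.1.2.1, x.2))))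
    (h2 : mar P (fun ω => (c ω, y ω)) = mar (A1 Q F) (fun x => ((x.1.2.1, x.2), x.1.2.2))) :
    mar (cop P c y) (fun x => (z x.1, (x.2, (c x.1).2))) = nx Q F := by
  have h3 : mar P c = mar (A1 Q F) (fun x => (x.1.2.1, x.2)) := by
    funext d
    have e1 := mar_mar P (fun ω => (c ω, y ω)) (fun w => w.1) d
    have e2 := mar_mar (A1 Q F) (fun x => ((x.1.2.1, x.2), x.1.2.2)) (fun w => w.1) d
    rw [h2] at e1
    exact e1.symm.trans e2
  have h4 : ker P c y = ker (A1 Q F) (fun x => (x.1.2.1, x.2)) (fun x => x.1.2.2) := by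
    funext d u
    unfold ker
    rw [h2, h3]
  have h5 : mar (cop P c y) (fun x => ((z x.1, c x.1), x.2)) =
      mar (A2 Q F) (fun x => ((x.1.1.1, (x.1.1.2.1, x.1.2)), x.2)) := by
    funext ⟨a, b⟩
    have e1 := mar_att (P := P) (f := c) (K := ker P c y) (fun ω => (z ω, c ω)) (fun w => w.2)
      (fun _ => rfl) a b
    have e2 := mar_att (P := A1 Q F) (f := fun x => (x.1.2.1, x.2))
      (K := ker (A1 Q F) (fun x => (x.1.2.1, x.2)) (fun x => x.1.2.2))
      (fun x => (x.1.1, (x.1.2.1, x.2))) (fun w => w.2) (fun _ => rfl) a b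
    unfold A2 cop
    rw [e1, e2, h1, h4]
  have h6 : mar (cop P c y) (fun x => (z x.1, (x.2, (c x.1).2))) =
      mar (mar (cop P c y) (fun x => ((z x.1, c x.1), x.2)))
        (fun w => (w.1.1, (w.2, w.1.2.2))) := by
    funext a
    rw [mar_mar]
  rw [h6, h5]
  funext a
  rw [mar_mar]
  rfl

section up

variable (h : Lab Q F) (hE : Edge Q)
include h hE

theorem S2_nn (x) : 0 ≤ S2 Q F x := cop_nonneg (h.A1_nn hE) _ _ x

theorem S3_nn (x) : 0 ≤ S3 Q F x := cop_nonneg (S2_nn h hE) _ _ x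

theorem S2_fst {α : Type} (g : (ρ × (U × U)) × U → α) :
    mar (S2 Q F) (fun x => g x.1) = mar (A1 Q F) g := cop_fst (h.A1_nn hE) _ _ g

theorem S2_ent_fst {α : Type} [Fintype α] (g : (ρ × (U × U)) × U → α) :
    ent (S2 Q F) (fun x => g x.1) = ent (A1 Q F) g := cop_ent_fst (h.A1_nn hE) _ _ g

theorem S2_law : mar (S2 Q F) (fun x => ((x.1.1.2.1, x.1.2), x.2)) =
    mar (A1 Q F) (fun x => ((x.1.2.1, x.2), (x.1.1, x.1.2.2))) := cop_law (h.A1_nn hE) _ _

theorem S3_one : mar (S3 Q F) (fun x => (x.1.1.1.1, (x.2, x.1.1.2))) = nx Q F :=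
  nx_of_law (S2 Q F) (fun x => x.1.1.1) (fun x => (x.1.1.2.1, x.1.2)) (fun x => x.1.1.2.2)
    (S2_fst h hE (fun x => (x.1.1, (x.1.2.1, x.2))))
    (S2_fst h hE (fun x => ((x.1.2.1, x.2), x.1.2.2)))

theorem S3_two : mar (S3 Q F) (fun x => (x.1.2.1, (x.2, x.1.1.2))) = nx Q F := by
  refine nx_of_law (S2 Q F) (fun x => x.2.1) (fun x => (x.1.1.2.1, x.1.2)) (fun x => x.1.1.2.2)
    ?_ (S2_fst h hE (fun x => ((x.1.2.1, x.2), x.1.2.2)))
  funext a
  have e1 := mar_mar (S2 Q F) (fun x => ((x.1.1.2.1, x.1.2), x.2)) (fun w => (w.2.1, w.1)) a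
  have e2 := mar_mar (A1 Q F) (fun x => ((x.1.2.1, x.2), (x.1.1, x.1.2.2)))
    (fun w => (w.2.1, w.1)) a
  rw [S2_law h hE] at e1
  exact e1.symm.trans e2

theorem up_one : mar (up Q F) (fun x => (x.1.1, x.2)) = nx Q F := by
  rw [← S3_one h hE]
  funext a
  unfold up
  rw [mar_mar]

theorem up_two : mar (up Q F) (fun x => (x.1.2, x.2)) = nx Q F := by
  rw [← S3_two h hE]
  funext a
  unfold up
  rw [mar_mar]

theorem up_lab : Lab Q (up Q F) where
  nn := mar_nonneg (S3_nn h hE) _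
  snd := by
    funext a
    have h1 := congrFun (h.nx_lab hE).snd a
    rw [← up_one h hE, mar_mar] at h1
    exact h1

/-- the joint entropy of the label and the ends of the cherry -/
theorem ends_ge : ent F (fun x => x) + h2Q Q - hQ Q ≤
    ent (A1 Q F) (fun x => (x.1.1, (x.1.2.1, x.2))) := by
  have h1 := subm (h.A1_nn hE) (A := fun x => (x.1.1, (x.1.2.1, x.2)))
    (B := fun x => ((x.1.2.1, x.2), x.1.2.2)) (C := fun x => x)
    (D := fun x => (x.1.2.1, x.2)) (fun x y => by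
      simp only [Prod.ext_iff]
      tauto) (fun x y => by
      simp only [Prod.ext_iff]
      tauto) (fun x y => by
      simp only [Prod.ext_iff]
      tauto)
  have h2 := h.A1_ent hE (fun x => x) (fun x => x.2.2) (fun _ => rfl)
  have h3 := h.A1_ent_mid hE
  have h4 := h.A1_ent_ends hE
  have e1 : ent (A1 Q F) (fun x => (x.1, x.2)) = ent (A1 Q F) (fun x => x) := rfl
  rw [h3, h4] at h1
  rw [e1] at h2
  linarith

/-- the joint entropy of the label and the new end of the cherry -/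
theorem end_ge : ent F (fun x => (x.1, x.2.2)) ≤ ent (A1 Q F) (fun x => (x.1.1, x.2)) := by
  have h1 := subm (h.A1_nn hE) (A := fun x => (x.1.1, x.2)) (B := fun x => (x.1.2.2, x.2))
    (C := fun x => ((x.1.1, x.1.2.2), x.2)) (D := fun x => x.2) (fun x y => by
      simp only [Prod.ext_iff]
      tauto) (fun x y => by
      simp only [Prod.ext_iff]
      tauto) (fun x y => by
      simp only [Prod.ext_iff]
      tauto)
  have h2 := h.A1_ent hE (fun x => (x.1, x.2.2)) (fun y => y.2) (fun _ => rfl)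
  have h3 : ent (A1 Q F) (fun x => (x.1.2.2, x.2)) = hQ Q := by
    unfold ent
    rw [h.A1_edge hE]
    unfold hQ ent
    simp_rw [mar_id]
  have h4 : ent (A1 Q F) (fun x => x.2) = aQ Q := by
    have e1 : ent (A1 Q F) (fun x => x.2) =
        ent (mar (A1 Q F) (fun x => (x.1.2.2, x.2))) (fun e => e.2) := by rw [ent_mar]
    rw [e1, h.A1_edge hE, hE.ent_snd]
  rw [h3, h4, h2] at h1
  linarith

/-- lower bound for the entropy of the new state with the new label -/
theorem up_ge : ent (A1 Q F) (fun x => (x.1.1, (x.1.2.1, x.2))) - h2Q Q +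
    ent (nx Q F) (fun x => x) ≤ ent (up Q F) (fun x => x) := by
  have hn := S3_nn h hE
  have h1 := subm hn (A := fun x => ((x.1.1.1.1, x.1.2.1), (x.2, x.1.1.2)))
    (B := fun x => ((x.1.1.1.1, (x.1.1.1.2.1, x.1.1.2)), x.2))
    (C := fun x => (((x.1.1.1.1, (x.1.1.1.2.1, x.1.1.2)), x.1.2.1), x.2))
    (D := fun x => (x.1.1.1.1, (x.2, x.1.1.2))) (fun x y => by
      simp only [Prod.ext_iff]
      tauto) (fun x y => by
      simp only [Prod.ext_iff]
      tauto) (fun x y => by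
      simp only [Prod.ext_iff]
      tauto)
  have eA : ent (S3 Q F) (fun x => ((x.1.1.1.1, x.1.2.1), (x.2, x.1.1.2))) =
      ent (up Q F) (fun x => x) := by
    unfold up
    rw [ent_mar]
  have eD : ent (S3 Q F) (fun x => (x.1.1.1.1, (x.2, x.1.1.2))) = ent (nx Q F) (fun x => x) := by
    rw [← S3_one h hE, ent_mar]
  have eB := cop_ent (S2_nn h hE) (fun x => (x.1.1.2.1, x.1.2)) (fun x => x.1.1.2.2)
    (fun x => (x.1.1.1, (x.1.1.2.1, x.1.2))) (fun w => w.2) (fun _ => rfl)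
  have eC := cop_ent (S2_nn h hE) (fun x => (x.1.1.2.1, x.1.2)) (fun x => x.1.1.2.2)
    (fun x => ((x.1.1.1, (x.1.1.2.1, x.1.2)), x.2.1)) (fun w => w.1.2) (fun _ => rfl)
  have eC2 := cop_ent_map (h.A1_nn hE) (fun x => (x.1.2.1, x.2)) (fun x => (x.1.1, x.1.2.2))
    (fun w => w.1) (fun x => (x.1.1, (x.1.2.1, x.2))) (fun w => w.2) (fun _ => rfl)
  have f1 : ent (S2 Q F) (fun x => (x.1.1.1, (x.1.1.2.1, x.1.2))) =
      ent (A1 Q F) (fun x => (x.1.1, (x.1.2.1, x.2))) :=
    S2_ent_fst h hE (fun x => (x.1.1, (x.1.2.1, x.2)))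
  have f2 : ent (S2 Q F) (fun x => ((x.1.1.1, (x.1.1.2.1, x.1.2)), x.2.1)) =
      ent (cop (A1 Q F) (fun x => (x.1.2.1, x.2)) (fun x => (x.1.1, x.1.2.2)))
        (fun x => ((x.1.1.1, (x.1.1.2.1, x.1.2)), x.2.1)) := rfl
  have f3 : ent (A1 Q F) (fun ω => ((ω.1.2.1, ω.2), ω.1.1)) =
      ent (A1 Q F) (fun x => (x.1.1, (x.1.2.1, x.2))) := ent_same _ fun x y => by
    simp only [Prod.ext_iff]
    tauto
  have g1 : ent (S3 Q F) (fun x => ((x.1.1.1.1, (x.1.1.1.2.1, x.1.1.2)), x.2)) =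
      ent (cop (S2 Q F) (fun x => (x.1.1.2.1, x.1.2)) (fun x => x.1.1.2.2))
        (fun x => ((x.1.1.1.1, (x.1.1.1.2.1, x.1.1.2)), x.2)) := rfl
  have g2 : ent (S3 Q F) (fun x => (((x.1.1.1.1, (x.1.1.1.2.1, x.1.1.2)), x.1.2.1), x.2)) =
      ent (cop (S2 Q F) (fun x => (x.1.1.2.1, x.1.2)) (fun x => x.1.1.2.2))
        (fun x => (((x.1.1.1.1, (x.1.1.1.2.1, x.1.1.2)), x.1.2.1), x.2)) := rfl
  have h4 := h.A1_ent_ends hE
  rw [eA, eD, g1, g2, eB, eC, f1, f2, eC2, f3, h4] at h1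
  linarith

/-- lower bound for the entropy of the second vertex of the new state with the new label -/
theorem up_vertex : ent (A1 Q F) (fun x => (x.1.1, (x.1.2.1, x.2))) - h2Q Q +
    2 * ent F (fun x => (x.1, x.2.2)) + hQ Q - aQ Q - ent (nx Q F) (fun x => x) ≤
      ent (up Q F) (fun x => (x.1, x.2.2)) := by
  have hn := S2_nn h hE
  -- the entropy of the two labels and `f'`
  have e0 : ent (up Q F) (fun x => (x.1, x.2.2)) =
      ent (S2 Q F) (fun x => ((x.1.1.1, x.2.1), x.1.2)) := by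
    unfold up
    rw [ent_mar]
    exact cop_ent_fst hn _ _ (fun x => ((x.1.1.1, x.2.1), x.1.2))
  have h1 := subm hn (A := fun x => ((x.1.1.1, x.2.1), x.1.2))
    (B := fun x => (x.1.1.1, (x.2.2, x.1.2)))
    (C := fun x => ((x.1.1.1, x.2.1), (x.2.2, x.1.2)))
    (D := fun x => (x.1.1.1, x.1.2)) (fun x y => by
      simp only [Prod.ext_iff]
      tauto) (fun x y => by
      simp only [Prod.ext_iff]
      tauto) (fun x y => by
      simp only [Prod.ext_iff]
      tauto)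
  have h2 := subm hn (A := fun x => ((x.1.1.1, x.2.1), (x.2.2, x.1.2)))
    (B := fun x => ((x.1.1.2.1, x.1.2), x.2))
    (C := fun x => ((x.1.1.1, (x.1.1.2.1, x.1.2)), x.2))
    (D := fun x => ((x.2.1, x.2.2), x.1.2)) (fun x y => by
      simp only [Prod.ext_iff]
      tauto) (fun x y => by
      simp only [Prod.ext_iff]
      tauto) (fun x y => by
      simp only [Prod.ext_iff]
      tauto)
  -- the own copy of the first label is not used: the law of `(Z_1, (y_2, f'))`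
  have eB : ent (S2 Q F) (fun x => (x.1.1.1, (x.2.2, x.1.2))) = ent (nx Q F) (fun x => x) := by
    have a1 := cop_map (A1 Q F) (fun x => (x.1.2.1, x.2)) (fun x => (x.1.1, x.1.2.2))
      (fun w : ρ × U => w.2)
    have a2 := nx_of_law (Q := Q) (F := F) (A1 Q F) (fun x => x.1.1) (fun x => (x.1.2.1, x.2))
      (fun x => x.1.2.2) rfl rfl
    rw [← a2, ← a1]
    rw [ent_mar]
    unfold S2
    have a3 := ent_mar (cop (A1 Q F) (fun x => (x.1.2.1, x.2)) (fun x => (x.1.1, x.1.2.2)))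
      (fun x => (x.1, x.2.2)) (fun x => (x.1.1.1, (x.2, (x.1.1.2.1, x.1.2).2)))
    exact a3.symm
  have eD : ent (S2 Q F) (fun x => (x.1.1.1, x.1.2)) = ent (A1 Q F) (fun x => (x.1.1, x.2)) :=
    S2_ent_fst h hE (fun x => (x.1.1, x.2))
  have eB2 : ent (S2 Q F) (fun x => ((x.1.1.2.1, x.1.2), x.2)) =
      ent (A1 Q F) (fun x => ((x.1.2.1, x.2), (x.1.1, x.1.2.2))) := by
    unfold ent
    rw [S2_law h hE]
  have eC2 := cop_ent (h.A1_nn hE) (fun x => (x.1.2.1, x.2)) (fun x => (x.1.1, x.1.2.2))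
    (fun x => (x.1.1, (x.1.2.1, x.2))) (fun w => w.2) (fun _ => rfl)
  have eD2 : ent (S2 Q F) (fun x => ((x.2.1, x.2.2), x.1.2)) =
      ent (A1 Q F) (fun x => ((x.1.1, x.1.2.2), x.2)) := by
    have a1 := ent_mar (S2 Q F) (fun x => ((x.1.1.2.1, x.1.2), x.2))
      (fun w => ((w.2.1, w.2.2), w.1.2))
    have a2 := ent_mar (A1 Q F) (fun x => ((x.1.2.1, x.2), (x.1.1, x.1.2.2)))
      (fun w => ((w.2.1, w.2.2), w.1.2))
    rw [S2_law h hE] at a1
    exact a1.symm.trans a2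
  have f1 := h.A1_ent hE (fun x => (x.1, x.2.2)) (fun y => y.2) (fun _ => rfl)
  have f2 : ent (S2 Q F) (fun x => ((x.1.1.1, (x.1.1.2.1, x.1.2)), x.2)) =
      ent (cop (A1 Q F) (fun x => (x.1.2.1, x.2)) (fun x => (x.1.1, x.1.2.2)))
        (fun x => ((x.1.1.1, (x.1.1.2.1, x.1.2)), x.2)) := rfl
  have h4 := h.A1_ent_ends hE
  have h5 := end_ge h hE
  rw [e0]
  rw [eB, eD] at h1
  rw [eB2, eD2, f1, f2, eC2, h4] at h2
  linarith

end up

end Vale.Agent.P050.H655
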